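import Vale.Agent.N176.Win

/-!
# P176: descent of an infinite finitistic dimension from `K(t)` to `K`
-/

set_option linter.unusedSectionVars false

namespace Vale.Agent.N176

open Vale.Agent.P176 Vale.Agent.P176.HMod Vale.Agent.P176.H807 CategoryTheory Function Polynomial

universe u

theorem findim_top_of {A : Type u} [Ring A]
    (h : ∀ p : ℕ, ∃ (M : Type u) (_ : AddCommGroup M) (_ : Module A M),
      Module.Finite A M ∧ (∃ n, PdLT A M n) ∧ ¬ PdLT A M p) : findim A = ⊤ := by
  classical
  refine findim_eq_top fun p => ?_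
  obtain ⟨M, _, _, h1, h2, h3⟩ := h p
  have h4 : p < Nat.find h2 := by
    by_contra hc
    exact h3 ((Nat.find_spec h2).mono (by omega))
  refine ⟨M, inferInstance, inferInstance, Nat.find h2 - 1, h1, by omega, ?_,
    Nat.find_min h2 (by omega)⟩
  rw [Nat.sub_add_cancel (by omega)]
  exact Nat.find_spec h2

theorem pd_equiv {R S : Type u} [Ring R] [Ring S] (E : ModuleCat.{u} R ≌ ModuleCat.{u} S)
    (n : ℕ) : ∀ M : ModuleCat.{u} R, HasProjectiveDimensionLT M (n + 1) ↔
      HasProjectiveDimensionLT (E.functor.obj M) (n + 1) := by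
  induction n with
  | zero =>
    intro M
    rw [zero_add, ← projective_iff_hasProjectiveDimensionLT_one,
      ← projective_iff_hasProjectiveDimensionLT_one, E.map_projective_iff]
  | succ n ih =>
    intro M
    have h := M.shortExact_projectiveShortComplex
    have hp : Projective M.projectiveShortComplex.X₂ := inferInstance
    exact (h.hasProjectiveDimensionLT_X₃_iff n hp).trans ((ih _).trans
      ((h.map_of_exact E.functor).hasProjectiveDimensionLT_X₃_iff n
        ((E.map_projective_iff _).2 hp)).symm)

open Matrix.Module in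
theorem findim_matrix {A : Type u} [Ring A] (h : findim A = ⊤) :
    findim (Matrix (Fin 2) (Fin 2) A) = ⊤ := by
  refine findim_top_of fun p => ?_
  obtain ⟨M, _, _, q, h1, h2, h3, h4⟩ := exists_of_findim_top h p
  obtain ⟨q, rfl⟩ : ∃ q', q = q' + 1 := ⟨q - 1, by omega⟩
  let E := ModuleCat.matrixEquivalence A (0 : Fin 2)
  exact ⟨Fin 2 → M, inferInstance, matrixModule,
    Module.Finite.of_restrictScalars_finite A _ _,
    ⟨_, (pd_equiv E (q + 1) (ModuleCat.of A M)).1 h3⟩,
    fun h5 => h4 ((pd_equiv E q (ModuleCat.of A M)).2 (h5.mono (by omega)))⟩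

theorem framed_sub {K C : Type u} [CommRing K] [Ring C] [Algebra K C] {B : Subalgebra K C}
    {U : Submodule B C} (g h : Fin 2 → C) (h1 : ∑ a, h a * g a = 1) (h2 : ∀ a, g a ∈ U)
    (h3 : ∀ u ∈ U, ∀ a, u * h a ∈ B) : Framed (B := B) U :=
  ⟨g, h,
    { toFun := fun u a => ⟨u.1 * h a, h3 u u.2 a⟩
      map_add' := fun _ _ => funext fun _ => Subtype.ext (add_mul _ _ _)
      map_smul' := fun _ _ => funext fun _ => Subtype.ext (mul_assoc _ _ _) },
    h1, h2, fun _ _ => mul_one _⟩

section transfer

variable {K : Type u} [Field K]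

theorem finite_of_torsion {Y : Type u} [AddCommGroup Y] [Module K[X] Y] [Module K Y]
    [IsScalarTower K K[X] Y] [Module.Finite K[X] Y] {f : K[X]} (f0 : f ≠ 0)
    (hf : ∀ y : Y, f • y = 0) : Module.Finite K Y := by
  obtain ⟨k, g, hg⟩ := Module.Finite.exists_fin' K[X] Y
  have : Module.Finite K (degreeLT K f.natDegree) :=
    Module.Finite.equiv (degreeLTEquiv K f.natDegree).symm
  refine Module.Finite.of_surjective (g.restrictScalars K ∘ₗ
    (degreeLT K f.natDegree).subtype.compLeft (Fin k)) fun y => ?_
  obtain ⟨v, rfl⟩ := hg y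
  refine ⟨fun i => ⟨v i % f, ?_⟩, ?_⟩
  · rw [mem_degreeLT, ← degree_eq_natDegree f0]
    exact degree_mod_lt _ f0
  · have h : v = f • (fun i => v i / f) + fun i => v i % f :=
      funext fun i => (EuclideanDomain.div_add_mod (v i) f).symm
    conv_rhs => rw [h, map_add, map_smul, hf, zero_add]
    rfl

variable {A : Type u} [Ring A] [Algebra K[X] A] [Algebra K A] [IsScalarTower K K[X] A]

theorem finite_sub [Module.Finite K[X] A] (B : Subalgebra K A) {Y : Type u} [AddCommGroup Y]
    [Module A Y] [Module.Finite A Y] {f : K[X]} (f0 : f ≠ 0)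
    (hf : ∀ y : Y, algebraMap K[X] A f • y = 0) : Module.Finite B Y := by
  let _ : Module K[X] Y := Module.compHom Y (algebraMap K[X] A)
  let _ : Module K Y := Module.compHom Y (algebraMap K A)
  have h1 : IsScalarTower K[X] A Y := ⟨fun r a y => by
    rw [Algebra.smul_def, mul_smul]; rfl⟩
  have h2 : IsScalarTower K K[X] Y := ⟨fun r a y => by
    change algebraMap K[X] A (r • a) • y = algebraMap K A r • algebraMap K[X] A a • y
    rw [Algebra.smul_def, map_mul, mul_smul, ← IsScalarTower.algebraMap_apply]⟩
  have h3 : IsScalarTower K B Y := ⟨fun r a y => by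
    change (r • (a : A)) • y = algebraMap K A r • (a : A) • y
    rw [Algebra.smul_def, mul_smul]⟩
  have h4 : Module.Finite K[X] Y := Module.Finite.trans A Y
  have h5 : Module.Finite K Y := finite_of_torsion f0 hf
  exact Module.Finite.of_restrictScalars_finite K B Y

theorem transfer {Λ : Subalgebra K[X] A} (o : IsOrder Λ) {B : Subalgebra K Λ} {t : Λ}
    {U0 U1 : Submodule B Λ} (w : Window (B := B) t U0 U1) (h : findim A = ⊤) : findim B = ⊤ := by
  refine findim_top_of fun p => ?_
  obtain ⟨M, _, _, q, h1, h2, h3, h4⟩ := exists_of_findim_top h p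
  obtain ⟨q, rfl⟩ : ∃ q', q = q' + 1 := ⟨q - 1, by omega⟩
  obtain ⟨Z, hZ⟩ := o.exists_lat (M := M)
  obtain ⟨g, g0, hg⟩ := o.upper _ M Z hZ h3
  have hd : 0 < (X * g + 1).degree := by
    have h5 : 0 < (X * g).degree := by
      rw [degree_mul, degree_X, degree_eq_natDegree g0]
      exact_mod_cast Nat.lt_add_right _ one_pos
    rwa [degree_add_eq_left_of_degree_lt (by rwa [degree_one])]
  have f0 : X * g + 1 ≠ 0 := ne_zero_of_degree_gt hd
  have hu : ¬ IsUnit (X * g + 1) := not_isUnit_of_degree_pos _ hd
  have := o.fin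
  have hN : IsNoetherianRing Λ := isNoetherian_of_tower K[X] inferInstance
  have hF : Module.Finite Λ Z := Module.Finite.of_fg hZ.fg
  have h6 := hg _ f0 ⟨1, -X, by ring⟩
  refine ⟨Q Λ (X * g + 1) Z, inferInstance, inferInstance, ?_, ⟨_, w.up _ _ h6⟩, fun h7 =>
    h4 (o.lower f0 hu q M Z hZ (w.down q _ (h7.mono (by omega))))⟩
  refine finite_sub B f0 fun y => ?_
  obtain ⟨y, rfl⟩ := Submodule.Quotient.mk_surjective _ y
  exact (Submodule.Quotient.mk_eq_zero _).2 ⟨y, rfl⟩

end transfer

section conc

variable {K : Type u} [Field K] {A : Type u} [Ring A] [Algebra (RatFunc K) A] [Algebra K[X] A]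
  [Algebra K A] [IsScalarTower K[X] (RatFunc K) A] [IsScalarTower K K[X] A]
  [IsScalarTower K (RatFunc K) A]

/-- the filtration by the order of the pole at infinity -/
def H (K : Type u) [Field K] [Algebra (RatFunc K) A] [Algebra K A] (s : Submodule ℤ A) (m : ℤ) :
    Submodule K A :=
  Submodule.span K {x | ∃ i ≤ m, ∃ a ∈ s, x = (RatFunc.X : RatFunc K) ^ i • a}

variable {s : Submodule ℤ A}

theorem H_mono {m n : ℤ} (h : m ≤ n) : H K s m ≤ H K s n :=
  Submodule.span_mono fun _ ⟨i, hi, ha⟩ => ⟨i, hi.trans h, ha⟩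

theorem H_mem {a : A} (h : a ∈ s) : a ∈ H K s 0 :=
  Submodule.subset_span ⟨0, le_rfl, a, h, by rw [zpow_zero, one_smul]⟩

theorem H_smul {m : ℤ} (i : ℤ) {x : A} (h : x ∈ H K s m) :
    (RatFunc.X : RatFunc K) ^ i • x ∈ H K s (m + i) := by
  induction h using Submodule.span_induction with
  | mem x hx =>
    obtain ⟨j, hj, a, ha, rfl⟩ := hx
    refine Submodule.subset_span ⟨i + j, by omega, a, ha, ?_⟩
    rw [zpow_add₀ RatFunc.X_ne_zero, mul_smul]
  | zero => rw [smul_zero]; exact zero_mem _
  | add x y _ _ hx hy => rw [smul_add]; exact add_mem hx hy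
  | smul c x _ hx => rw [smul_comm]; exact Submodule.smul_mem _ c hx

theorem H_mul (hm : ∀ a ∈ s, ∀ b ∈ s, a * b ∈ s) {m n k : ℤ} {x y : A} (hx : x ∈ H K s m)
    (hy : y ∈ H K s n) (hk : m + n = k) : x * y ∈ H K s k := by
  have h := Submodule.mul_mem_mul hx hy
  unfold H at h
  rw [Submodule.span_mul_span] at h
  refine Submodule.span_mono ?_ h
  rintro _ ⟨_, ⟨i, hi, a, ha, rfl⟩, _, ⟨j, hj, b, hb, rfl⟩, rfl⟩
  refine ⟨i + j, by omega, a * b, hm a ha b hb, ?_⟩
  rw [zpow_add₀ RatFunc.X_ne_zero]
  exact smul_mul_smul_comm _ _ _ _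

theorem finite_H [Module.Finite (RatFunc K) A] (hs : s.FG) (m : ℤ) :
    Module.Finite K ↥((Submodule.span K[X] (s : Set A)).restrictScalars K ⊓ H K s m) := by
  classical
  obtain ⟨S, rfl⟩ := hs
  have key : ∀ c : A →ₗ[RatFunc K] RatFunc K, ∃ W : Submodule K (RatFunc K), Module.Finite K W ∧
      ∀ x ∈ Submodule.span K[X] (Submodule.span ℤ (S : Set A) : Set A),
        x ∈ H K (Submodule.span ℤ (S : Set A)) m → c x ∈ W := by
    intro c
    obtain ⟨h, hh⟩ := IsLocalization.exist_integer_multiples_of_finset (nonZeroDivisors K[X])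
      (S.image c)
    have h0 : algebraMap K[X] (RatFunc K) h ≠ 0 :=
      IsFractionRing.to_map_ne_zero_of_mem_nonZeroDivisors h.2
    let c' : A →ₗ[RatFunc K] RatFunc K := algebraMap K[X] (RatFunc K) h • c
    let v := RatFunc.inftyValuation K
    obtain ⟨D, hD⟩ : ∃ D : ℤ, ∀ a ∈ S, v (c' a) ≤ WithZero.exp D := by
      refine ⟨((S.sup fun a => (c' a).intDegree.toNat : ℕ) : ℤ), fun a ha => ?_⟩
      by_cases h1 : c' a = 0
      · rw [h1, map_zero]; exact zero_le
      · rw [show v (c' a) = _ from RatFunc.inftyValuation_of_nonzero K h1, WithZero.exp_le_exp]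
        exact (Int.self_le_toNat _).trans
          (Int.ofNat_le.2 (Finset.le_sup (f := fun a => (c' a).intDegree.toNat) ha))
    have hk : ∀ (k : K) (y : RatFunc K), v (k • y) ≤ v y := by
      intro k y
      by_cases h1 : k = 0
      · rw [h1, zero_smul, map_zero]; exact zero_le
      · rw [Algebra.smul_def, map_mul, RatFunc.algebraMap_eq_C, RatFunc.inftyValuation.C K h1,
          one_mul]
    have h1 : ∀ a ∈ Submodule.span ℤ (S : Set A), v (c' a) ≤ WithZero.exp D := by
      intro a ha
      induction ha using Submodule.span_induction with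
      | mem x hx => exact hD x hx
      | zero => rw [map_zero, map_zero]; exact zero_le
      | add x y _ _ hx hy => rw [map_add]; exact v.map_add_le hx hy
      | smul n x _ hx =>
        rw [map_zsmul, ← Int.cast_smul_eq_zsmul K]
        exact (hk _ _).trans hx
    have h2 : ∀ x ∈ H K (Submodule.span ℤ (S : Set A)) m, v (c' x) ≤ WithZero.exp (m + D) := by
      intro x hx
      induction hx using Submodule.span_induction with
      | mem x hx =>
        obtain ⟨i, hi, a, ha, rfl⟩ := hx
        rw [map_smul, smul_eq_mul, map_mul, RatFunc.inftyValuation.X_zpow, WithZero.exp_add]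
        exact mul_le_mul' (WithZero.exp_le_exp.2 hi) (h1 a ha)
      | zero => rw [map_zero, map_zero]; exact zero_le
      | add x y _ _ hx hy => rw [map_add]; exact v.map_add_le hx hy
      | smul n x _ hx =>
        rw [c'.map_smul_of_tower]
        exact (hk _ _).trans hx
    have h3 : ∀ x ∈ Submodule.span K[X] (S : Set A),
        ∃ p : K[X], algebraMap K[X] (RatFunc K) p = c' x := by
      intro x hx
      induction hx using Submodule.span_induction with
      | mem x hx =>
        obtain ⟨p, hp⟩ := hh (c x) (Finset.mem_image_of_mem c hx)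
        exact ⟨p, hp.trans (Algebra.smul_def _ _)⟩
      | zero => exact ⟨0, by rw [map_zero, map_zero]⟩
      | add x y _ _ hx hy =>
        obtain ⟨p, hp⟩ := hx
        obtain ⟨q, hq⟩ := hy
        exact ⟨p + q, by rw [map_add, map_add, hp, hq]⟩
      | smul r x _ hx =>
        obtain ⟨p, hp⟩ := hx
        exact ⟨r * p, by rw [map_mul, hp, c'.map_smul_of_tower, Algebra.smul_def]⟩
    have hf : Module.Finite K (degreeLT K ((m + D).toNat + 1)) :=
      Module.Finite.equiv (degreeLTEquiv K _).symm
    refine ⟨(degreeLT K ((m + D).toNat + 1)).map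
      (LinearMap.mulLeft K (algebraMap K[X] (RatFunc K) h)⁻¹ ∘ₗ
        (IsScalarTower.toAlgHom K K[X] (RatFunc K)).toLinearMap), inferInstance,
      fun x hx hx' => ?_⟩
    rw [Submodule.span_span_of_tower] at hx
    obtain ⟨p, hp⟩ := h3 x hx
    refine ⟨p, ?_, ?_⟩
    · rw [SetLike.mem_coe, mem_degreeLT]
      by_cases p0 : p = 0
      · rw [p0, degree_zero]; exact WithBot.bot_lt_coe _
      · have h4 := h2 x hx'
        rw [← hp, show v _ = _ from RatFunc.inftyValuation.polynomial K p0,
          WithZero.exp_le_exp] at h4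
        rw [degree_eq_natDegree p0]
        exact_mod_cast (by omega : p.natDegree < (m + D).toNat + 1)
    · change _ * algebraMap K[X] (RatFunc K) p = c x
      rw [hp]
      exact inv_mul_cancel_left₀ h0 _
  let b := Module.finBasis (RatFunc K) A
  choose W hW hW' using fun i => key (b.coord i)
  refine Module.Finite.of_injective (LinearMap.pi fun i => LinearMap.codRestrict (W i)
    ((b.coord i).restrictScalars K ∘ₗ Submodule.subtype _) fun x => hW' i x x.2.1 x.2.2)
    fun x y hxy => Subtype.ext (b.ext_elem fun i => congrArg Subtype.val (congrFun hxy i))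

variable (h1 : (1 : A) ∈ s) (hm : ∀ a ∈ s, ∀ b ∈ s, a * b ∈ s)

variable (K) in
/-- the order of matrices with entries in the `K[X]`-span -/
def ord : Subalgebra K[X] (Matrix (Fin 2) (Fin 2) A) where
  carrier := {x | ∀ i j, x i j ∈ Submodule.span K[X] (s : Set A)}
  add_mem' hx hy i j := add_mem (hx i j) (hy i j)
  mul_mem' {x y} hx hy i j := by
    rw [Matrix.mul_apply]
    refine Submodule.sum_mem _ fun l _ => ?_
    have h := Submodule.mul_mem_mul (hx i l) (hy l j)
    rw [Submodule.span_mul_span] at h
    refine Submodule.span_mono ?_ h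
    rintro _ ⟨a, ha, b, hb, rfl⟩
    exact hm a ha b hb
  algebraMap_mem' r i j := by
    rw [Matrix.algebraMap_matrix_apply]
    split_ifs
    · rw [Algebra.algebraMap_eq_smul_one]
      exact Submodule.smul_mem _ r (Submodule.subset_span h1)
    · exact zero_mem _

variable (K) in
/-- the window algebra -/
def win : Subalgebra K (ord K h1 hm) where
  carrier := {x | ∀ i j : Fin 2, x.1 i j ∈ H K s (((j : ℕ) : ℤ) - (i : ℕ))}
  add_mem' hx hy i j := add_mem (hx i j) (hy i j)
  mul_mem' {x y} hx hy i j := by
    change (x.1 * y.1) i j ∈ _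
    rw [Matrix.mul_apply]
    exact Submodule.sum_mem _ fun l _ => H_mul hm (hx i l) (hy l j) (by omega)
  algebraMap_mem' r i j := by
    change algebraMap K (Matrix (Fin 2) (Fin 2) A) r i j ∈ _
    rw [Matrix.algebraMap_matrix_apply]
    split_ifs with h
    · rw [Algebra.algebraMap_eq_smul_one, h, sub_self]
      exact Submodule.smul_mem _ r (H_mem h1)
    · exact zero_mem _

variable (K) in
/-- the two projective modules -/
def col (c : Fin 2) : Submodule (win K h1 hm) (ord K h1 hm) where
  carrier := {x | ∀ i j : Fin 2, x.1 i j ∈ H K s (((c : ℕ) : ℤ) - (i : ℕ))}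
  add_mem' hx hy i j := add_mem (hx i j) (hy i j)
  zero_mem' i j := zero_mem _
  smul_mem' x y hy i j := by
    change (x.1.1 * y.1) i j ∈ _
    rw [Matrix.mul_apply]
    exact Submodule.sum_mem _ fun l _ => H_mul hm (x.2 i l) (hy l j) (by omega)

variable (K) in
/-- elementary matrices -/
def El (i j : Fin 2) : Submodule.span K[X] (s : Set A) →ₗ[K[X]] ord K h1 hm where
  toFun a := ⟨Matrix.single i j a, fun k l => by
    rw [Matrix.single_apply]
    split_ifs
    · exact a.2
    · exact zero_mem _⟩
  map_add' a b := Subtype.ext (Matrix.single_add i j _ _)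
  map_smul' r a := Subtype.ext (Matrix.smul_single r i j _).symm

theorem framed_col (c : Fin 2) : Framed (B := win K h1 hm) (col K h1 hm c) := by
  let e : Submodule.span K[X] (s : Set A) := ⟨1, Submodule.subset_span h1⟩
  refine framed_sub (fun a => El K h1 hm c a e) (fun a => El K h1 hm a c e) (Subtype.ext ?_)
    (fun a i j => ?_) fun u hu a i j => ?_
  · rw [Fin.sum_univ_two]
    change Matrix.single 0 c (1 : A) * Matrix.single c 0 1 +
      Matrix.single 1 c 1 * Matrix.single c 1 1 = 1
    rw [Matrix.single_mul_single_same, Matrix.single_mul_single_same, mul_one]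
    ext i j
    fin_cases i <;> fin_cases j <;> simp
  · change Matrix.single c a (1 : A) i j ∈ _
    rw [Matrix.single_apply]
    split_ifs with h
    · rw [h.1, sub_self]
      exact H_mem h1
    · exact zero_mem _
  · change (u.1 * Matrix.single a c (1 : A)) i j ∈ _
    by_cases h : j = c
    · rw [h, Matrix.mul_single_apply_same, mul_one]
      exact hu i a
    · rw [Matrix.mul_single_apply_of_ne _ _ _ _ _ h]
      exact zero_mem _

theorem tmul (x : ord K h1 hm) (i j : Fin 2) :
    (algebraMap K[X] (ord K h1 hm) X * x).1 i j = (RatFunc.X : RatFunc K) ^ (1 : ℤ) • x.1 i j := by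
  rw [← Algebra.smul_def, zpow_one, ← RatFunc.algebraMap_X, algebraMap_smul]
  rfl

theorem window : Window (B := win K h1 hm) (algebraMap K[X] (ord K h1 hm) X) (col K h1 hm 0)
    (col K h1 hm 1) where
  cen x := Algebra.commutes _ x
  reg x hx := Subtype.ext (Matrix.ext fun i j => by
    have h := tmul h1 hm x i j
    rw [hx] at h
    exact ((smul_eq_zero_iff_right (zpow_ne_zero _ RatFunc.X_ne_zero)).1 h.symm))
  f0 := framed_col h1 hm 0
  f1 := framed_col h1 hm 1
  le x hx i j := H_mono (by simp) (hx i j)
  mul x hx i j := by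
    rw [tmul]
    exact H_mono (by simp) (H_smul 1 (hx i j))
  sat x hx i j := by
    have h := H_smul (-1) (hx i j)
    rw [tmul, ← mul_smul, ← zpow_add₀ RatFunc.X_ne_zero, neg_add_cancel, zpow_zero, one_smul] at h
    exact H_mono (by simp) h
  gen S hS x := by
    have key : ∀ i j a (ha : a ∈ Submodule.span K[X] (s : Set A)) (p : K[X]),
        p • El K h1 hm i j ⟨a, ha⟩ ∈ S := by
      intro i j a ha
      induction ha using Submodule.span_induction with
      | mem a ha =>
        intro p
        induction p using Polynomial.induction_on' with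
        | add p q hp hq => rw [add_smul]; exact add_mem hp hq
        | monomial n c =>
          rw [← C_mul_X_pow_eq_monomial, mul_comm, mul_smul, Algebra.smul_def, map_pow,
            (Algebra.commute_algebraMap_left X _).pow_left n]
          refine hS n _ fun k l => ?_
          change C c • Matrix.single i j a k l ∈ _
          rw [← algebraMap_eq, algebraMap_smul, Matrix.single_apply]
          refine Submodule.smul_mem _ c ?_
          split_ifs
          · exact H_mono (by have := k.2; simp; omega) (H_mem ha)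
          · exact zero_mem _
      | zero =>
        intro p
        change p • El K h1 hm i j 0 ∈ S
        rw [map_zero, smul_zero]
        exact zero_mem S
      | add a b ha hb h h' =>
        intro p
        have h2 := add_mem (h p) (h' p)
        rwa [← smul_add, ← map_add] at h2
      | smul r a ha h =>
        intro p
        have h2 := h (p * r)
        rwa [mul_smul, ← map_smul] at h2
    have hx : x = ∑ i, ∑ j, (1 : K[X]) • El K h1 hm i j ⟨x.1 i j, x.2 i j⟩ := by
      apply Subtype.ext
      simp only [one_smul, AddSubmonoidClass.coe_finsetSum]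
      exact Matrix.matrix_eq_sum_single x.1
    rw [hx]
    exact sum_mem fun i _ => sum_mem fun j _ => key i j _ _ 1

theorem finite_win [Module.Finite (RatFunc K) A] (hs : s.FG) :
    Module.Finite K (win K h1 hm) := by
  have := finite_H (K := K) hs 1
  let f : win K h1 hm →ₗ[K] Fin 2 → Fin 2 →
      ↥((Submodule.span K[X] (s : Set A)).restrictScalars K ⊓ H K s 1) :=
    { toFun := fun x i j => ⟨x.1.1 i j, x.1.2 i j, H_mono (by have := j.2; omega) (x.2 i j)⟩
      map_add' := fun _ _ => rfl
      map_smul' := fun _ _ => rfl }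
  exact Module.Finite.of_injective f fun x y h => Subtype.ext (Subtype.ext
    (Matrix.ext fun i j => congrArg Subtype.val (congrFun (congrFun h i) j)))

theorem isOrder_ord [Module.Finite (RatFunc K) A] (hs : s.FG)
    (hsp : Submodule.span (RatFunc K) (s : Set A) = ⊤) : IsOrder (ord K h1 hm) where
  noeth := inferInstance
  dom := inferInstance
  art := IsArtinianRing.of_finite (RatFunc K) _
  fin := by
    obtain ⟨S, hS⟩ := hs
    have : Module.Finite K[X] (Submodule.span K[X] (s : Set A)) :=
      Module.Finite.of_fg ⟨S, by rw [← hS, Submodule.span_span_of_tower]⟩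
    let f : ord K h1 hm →ₗ[K[X]] Fin 2 → Fin 2 → Submodule.span K[X] (s : Set A) :=
      { toFun := fun x i j => ⟨x.1 i j, x.2 i j⟩
        map_add' := fun _ _ => rfl
        map_smul' := fun _ _ => rfl }
    exact Module.Finite.of_injective f fun x y h => Subtype.ext
      (Matrix.ext fun i j => congrArg Subtype.val (congrFun (congrFun h i) j))
  unit h h0 := by
    rw [IsScalarTower.algebraMap_apply K[X] (RatFunc K)]
    exact (IsUnit.mk0 _ (RatFunc.algebraMap_ne_zero h0)).map _
  den x := by
    have key : ∀ a : A, ∃ h : K[X], h ≠ 0 ∧ h • a ∈ Submodule.span K[X] (s : Set A) := by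
      intro a
      have ha : a ∈ Submodule.span (RatFunc K) (s : Set A) := hsp ▸ trivial
      induction ha using Submodule.span_induction with
      | mem a ha => exact ⟨1, one_ne_zero, by rw [one_smul]; exact Submodule.subset_span ha⟩
      | zero => exact ⟨1, one_ne_zero, by rw [smul_zero]; exact zero_mem _⟩
      | add a b _ _ ha hb =>
        obtain ⟨p, p0, hp⟩ := ha
        obtain ⟨q, q0, hq⟩ := hb
        refine ⟨p * q, mul_ne_zero p0 q0, ?_⟩
        rw [smul_add]
        refine add_mem ?_ ?_
        · rw [mul_comm, mul_smul]; exact Submodule.smul_mem _ _ hp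
        · rw [mul_smul]; exact Submodule.smul_mem _ _ hq
      | smul r a _ ha =>
        obtain ⟨p, p0, hp⟩ := ha
        refine ⟨r.denom * p, mul_ne_zero r.denom_ne_zero p0, ?_⟩
        rw [mul_smul, smul_comm p, ← smul_assoc, Algebra.smul_def r.denom, mul_comm,
          ← (div_eq_iff (RatFunc.algebraMap_ne_zero r.denom_ne_zero)).1 r.num_div_denom,
          algebraMap_smul]
        exact Submodule.smul_mem _ _ hp
    choose h h0 hh using key
    refine ⟨∏ p : Fin 2 × Fin 2, h (x p.1 p.2), Finset.prod_ne_zero_iff.2 fun p _ => h0 _,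
      fun i j => ?_⟩
    rw [← Algebra.smul_def, ← Finset.prod_erase_mul _ _ (Finset.mem_univ (i, j)), mul_smul]
    exact Submodule.smul_mem _ _ (hh _)

end conc

/-- Descent from `K(t)` to `K`. -/
theorem descent (K : Type u) [Field K] (A : Type u) [Ring A] [Algebra (RatFunc K) A]
    [Module.Finite (RatFunc K) A] (hs : Spanned (RatFunc K) A) (h : findim A = ⊤) :
    ∃ (B : Type u) (_ : Ring B) (_ : Algebra K B), Module.Finite K B ∧ findim B = ⊤ := by
  let _ : Algebra K[X] A := Algebra.compHom A (algebraMap K[X] (RatFunc K))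
  let _ : Algebra K A := Algebra.compHom A (algebraMap K (RatFunc K))
  have i1 : IsScalarTower K[X] (RatFunc K) A := IsScalarTower.of_algebraMap_eq fun _ => rfl
  have i2 : IsScalarTower K (RatFunc K) A := IsScalarTower.of_algebraMap_eq fun _ => rfl
  have i3 : IsScalarTower K K[X] A := IsScalarTower.of_algebraMap_eq fun x =>
    congrArg (algebraMap (RatFunc K) A) (IsScalarTower.algebraMap_apply K K[X] (RatFunc K) x)
  obtain ⟨s, h0, h1, hm, hsp⟩ := hs
  exact ⟨win K h1 hm, inferInstance, inferInstance, finite_win h1 hm h0,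
    transfer (isOrder_ord h1 hm h0 hsp) (window h1 hm) (findim_matrix h)⟩

end Vale.Agent.N176
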