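import Vale.Agent.N176.Split
import Vale.Agent.P176.H807.TwoSided

/-!
# P176: lattices over an order and their reductions
-/

namespace Vale.Agent.N176

open Vale.Agent.P176.HMod Vale.Agent.P176.H807 CategoryTheory Function

universe u

section gen

variable {B : Type u} [Ring B] {X Y Z : Type u} [AddCommGroup X] [Module B X] [AddCommGroup Y]
  [Module B Y] [AddCommGroup Z] [Module B Z]

theorem pdLT_retract {n : ℕ} (i : X →ₗ[B] Y) (r : Y →ₗ[B] X) (h : r ∘ₗ i = LinearMap.id)
    (hY : PdLT B Y n) : PdLT B X n := by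
  have : HasProjectiveDimensionLT (ModuleCat.of B Y) n := hY
  exact Retract.hasProjectiveDimensionLT (X := ModuleCat.of B X) (Y := ModuleCat.of B Y)
    ⟨ModuleCat.ofHom i, ModuleCat.ofHom r, by
      rw [← ModuleCat.ofHom_comp, h]; rfl⟩ n

theorem ses_ker (g : Y →ₗ[B] Z) (hg : Surjective g) : SES (LinearMap.ker g).subtype g :=
  ⟨Subtype.val_injective, fun x => ⟨fun h => ⟨⟨x, h⟩, rfl⟩, fun ⟨y, hy⟩ => hy ▸ y.2⟩, hg⟩

/-- a short exact sequence with a retraction and projective middle term -/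
theorem projective_of_retraction {f : X →ₗ[B] Y} {g : Y →ₗ[B] Z} (s : SES f g)
    [Module.Projective B Y] (r : Y →ₗ[B] X) (hr : r ∘ₗ f = LinearMap.id) :
    Module.Projective B Z := by
  let p : Y →ₗ[B] Y := LinearMap.id - f ∘ₗ r
  have hp : LinearMap.ker g ≤ LinearMap.ker p := by
    intro y hy
    obtain ⟨x, rfl⟩ := (s.exact y).1 hy
    have h1 : r (f x) = x := LinearMap.congr_fun hr x
    simp [p, h1]
  let e := g.quotKerEquivOfSurjective s.surj
  refine Module.Projective.of_split ((LinearMap.ker g).liftQ p hp ∘ₗ e.symm.toLinearMap) g ?_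
  ext z
  obtain ⟨y, rfl⟩ := s.surj z
  have h2 : e.symm (g y) = Submodule.Quotient.mk y := e.symm_apply_eq.2 rfl
  have h3 : g (f (r y)) = 0 := (s.exact _).2 ⟨_, rfl⟩
  simp [h2, p, h3]

variable {R : Type u} [CommRing R] [Algebra R B]

/-- reduction modulo a central element -/
abbrev Q (B : Type u) [Ring B] [Algebra R B] (f : R) (Y : Type u) [AddCommGroup Y] [Module B Y] :
    Type u := Y ⧸ LinearMap.range (sm (A := B) f Y)

theorem map_sm (φ : X →ₗ[B] Y) (f : R) (x : X) : φ (sm (A := B) f X x) = sm (A := B) f Y (φ x) :=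
  map_smul φ _ x

/-- functoriality of the reduction -/
def Q.map (f : R) (φ : X →ₗ[B] Y) : Q B f X →ₗ[B] Q B f Y :=
  Submodule.mapQ _ _ φ (by
    rintro _ ⟨x, rfl⟩
    exact ⟨φ x, (map_sm φ f x).symm⟩)

theorem Q.map_mk (f : R) (φ : X →ₗ[B] Y) (x : X) :
    Q.map f φ (Submodule.Quotient.mk x) = Submodule.Quotient.mk (φ x) := rfl

theorem Q.ses (f : R) {a : X →ₗ[B] Y} {b : Y →ₗ[B] Z} (s : SES a b)
    (hZ : Injective (sm (A := B) f Z)) : SES (Q.map f a) (Q.map f b) := by
  refine ⟨?_, ?_, ?_⟩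
  · rw [injective_iff_map_eq_zero]
    intro x hx
    obtain ⟨x, rfl⟩ := Submodule.Quotient.mk_surjective _ x
    rw [Q.map_mk, Submodule.Quotient.mk_eq_zero] at hx
    obtain ⟨y, hy⟩ := hx
    have h1 : b y = 0 := by
      apply hZ
      rw [← map_sm, hy, map_zero]
      exact (s.exact _).2 ⟨x, rfl⟩
    obtain ⟨x', rfl⟩ := (s.exact y).1 h1
    rw [Submodule.Quotient.mk_eq_zero]
    exact ⟨x', s.inj (by rw [map_sm, hy])⟩
  · intro y
    obtain ⟨y, rfl⟩ := Submodule.Quotient.mk_surjective _ y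
    constructor
    · intro h
      rw [Q.map_mk, Submodule.Quotient.mk_eq_zero] at h
      obtain ⟨z, hz⟩ := h
      obtain ⟨y', rfl⟩ := s.surj z
      have h1 : b (y - sm (A := B) f Y y') = 0 := by rw [map_sub, map_sm, hz, sub_self]
      obtain ⟨x, hx⟩ := (s.exact _).1 h1
      refine ⟨Submodule.Quotient.mk x, ?_⟩
      rw [Q.map_mk, hx, Submodule.Quotient.eq, sub_sub_cancel_left]
      exact Submodule.neg_mem _ ⟨y', rfl⟩
    · rintro ⟨x, hx⟩
      obtain ⟨x, rfl⟩ := Submodule.Quotient.mk_surjective _ x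
      rw [← hx, Q.map_mk, Q.map_mk, (s.exact _).2 ⟨x, rfl⟩, Submodule.Quotient.mk_zero]
  · intro z
    obtain ⟨z, rfl⟩ := Submodule.Quotient.mk_surjective _ z
    obtain ⟨y, rfl⟩ := s.surj z
    exact ⟨Submodule.Quotient.mk y, rfl⟩

theorem Q.ses_self (f : R) (hY : Injective (sm (A := B) f Y)) :
    SES (sm (A := B) f Y) (LinearMap.range (sm (A := B) f Y)).mkQ :=
  ⟨hY, fun _ => (Submodule.Quotient.mk_eq_zero _).trans Iff.rfl, Submodule.mkQ_surjective _⟩

theorem Q.pdLT_two (f : R) [Module.Projective B Y] (hY : Injective (sm (A := B) f Y)) :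
    PdLT B (Q B f Y) 2 :=
  (Q.ses_self f hY).pdLT₃ PdLT.of_projective (PdLT.of_projective.mono (by omega))

/-- Nakayama -/
theorem inj_one_sub [IsNoetherianRing R] [Module R Z] [IsScalarTower R B Z] [Module.Finite R Z]
    (tf : ∀ r : R, r ≠ 0 → ∀ z : Z, r • z = 0 → z = 0) {f : R} (hf : ¬ IsUnit f)
    (α : Z →ₗ[B] Z) (z : Z) (hz : z = f • α z) : z = 0 := by
  let N : Submodule R Z := LinearMap.ker (LinearMap.id - f • α.restrictScalars R)
  have hN : ∀ y, y ∈ N ↔ y = f • α y := by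
    intro y
    simp [N, sub_eq_zero]
  have hle : N ≤ Ideal.span {f} • N := by
    intro y hy
    have h1 := (hN y).1 hy
    have h2 : α y ∈ N := by
      rw [hN]
      conv_lhs => rw [h1]
      exact (α.restrictScalars R).map_smul f (α y)
    rw [h1]
    exact Submodule.smul_mem_smul (Ideal.mem_span_singleton_self f) h2
  obtain ⟨r, hr, hr'⟩ := Submodule.exists_sub_one_mem_and_smul_eq_zero_of_fg_of_le_smul _ N
    (IsNoetherian.noetherian N) hle
  refine tf r ?_ z (hr' z ((hN z).2 hz))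
  rintro rfl
  rw [zero_sub, neg_mem_iff, Ideal.mem_span_singleton] at hr
  exact hf (isUnit_of_dvd_one hr)

end gen

section lat

variable {R : Type u} [CommRing R] {A : Type u} [Ring A] [Algebra R A] (Λ : Subalgebra R A)

/-- `Λ` is an order in `A`. -/
structure IsOrder : Prop where
  noeth : IsNoetherianRing R
  dom : IsDomain R
  art : IsArtinianRing A
  fin : Module.Finite R Λ
  unit : ∀ h : R, h ≠ 0 → IsUnit (algebraMap R A h)
  den : ∀ a : A, ∃ h : R, h ≠ 0 ∧ algebraMap R A h * a ∈ Λ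

variable {Λ}
variable {M : Type u} [AddCommGroup M] [Module A M]

/-- lattices -/
structure IsLat (X : Submodule Λ M) : Prop where
  fg : X.FG
  den : ∀ m : M, ∃ h : R, h ≠ 0 ∧ algebraMap R A h • m ∈ X

/-- the standard lattice -/
def incl (Λ : Subalgebra R A) (k : ℕ) : (Fin k → Λ) →ₗ[Λ] (Fin k → A) where
  toFun v i := v i
  map_add' _ _ := rfl
  map_smul' _ _ := rfl

theorem incl_inj (k : ℕ) : Injective (incl Λ k) := fun _ _ h =>
  funext fun i => Subtype.ext (congrFun h i)

theorem IsOrder.smul_inj (o : IsOrder Λ) {h : R} (h0 : h ≠ 0) {m : M}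
    (hm : algebraMap R A h • m = 0) : m = 0 :=
  (o.unit h h0).smul_left_cancel.1 (hm.trans (smul_zero _).symm)

theorem IsOrder.sm_inj (o : IsOrder Λ) {h : R} (h0 : h ≠ 0) (X : Submodule Λ M) :
    Injective (sm (A := Λ) h X) := by
  rw [injective_iff_map_eq_zero]
  intro x hx
  exact Subtype.ext (o.smul_inj h0 (congrArg Subtype.val hx))

theorem IsOrder.sm_inj' (o : IsOrder Λ) {h : R} (h0 : h ≠ 0) (k : ℕ) :
    Injective (sm (A := Λ) h (Fin k → Λ)) := by
  rw [injective_iff_map_eq_zero]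
  intro x hx
  funext i
  exact Subtype.ext (o.smul_inj (M := A) h0 (congrArg Subtype.val (congrFun hx i)))

theorem IsOrder.den_fin (o : IsOrder Λ) {ι : Type*} (s : Finset ι) (a : ι → A) :
    ∃ h : R, h ≠ 0 ∧ ∀ i ∈ s, algebraMap R A h * a i ∈ Λ := by
  classical
  have := o.dom
  induction s using Finset.induction_on with
  | empty => exact ⟨1, one_ne_zero, by simp⟩
  | insert i s _ ih =>
    obtain ⟨h, h0, hh⟩ := ih
    obtain ⟨g, g0, hg⟩ := o.den (a i)
    refine ⟨h * g, mul_ne_zero h0 g0, fun j hj => ?_⟩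
    rcases Finset.mem_insert.1 hj with rfl | hj
    · rw [map_mul, mul_assoc]
      exact Λ.mul_mem (Λ.algebraMap_mem h) hg
    · rw [mul_comm h, map_mul, mul_assoc]
      exact Λ.mul_mem (Λ.algebraMap_mem g) (hh j hj)

theorem ext_free {k : ℕ} {N : Type u} [AddCommGroup N] [Module A N]
    (φ : (Fin k → Λ) →ₗ[Λ] N) : ∃ ψ : (Fin k → A) →ₗ[A] N, ∀ v, ψ (incl Λ k v) = φ v := by
  refine ⟨Fintype.linearCombination A fun i => φ (Pi.single i 1), fun v => ?_⟩
  have h : v = ∑ i, v i • (Pi.single i 1 : Fin k → Λ) := by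
    funext j
    rw [Finset.sum_apply]
    simp [Pi.single_apply]
  rw [Fintype.linearCombination_apply]
  conv_rhs => rw [h, map_sum]
  refine Finset.sum_congr rfl fun i _ => ?_
  rw [map_smul]
  rfl

theorem IsOrder.exists_lat (o : IsOrder Λ) [Module.Finite A M] :
    ∃ X : Submodule Λ M, IsLat X := by
  obtain ⟨k, g, hg⟩ := Module.Finite.exists_fin' A M
  refine ⟨LinearMap.range (g.restrictScalars Λ ∘ₗ incl Λ k), ?_, fun m => ?_⟩
  · rw [← Submodule.map_top]
    exact Module.Finite.fg_top.map _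
  · obtain ⟨v, rfl⟩ := hg m
    obtain ⟨h, h0, hh⟩ := o.den_fin Finset.univ v
    refine ⟨h, h0, fun i => ⟨_, hh i (Finset.mem_univ i)⟩, ?_⟩
    rw [← map_smul]
    rfl

/-- presentation of a lattice -/
theorem IsOrder.present (o : IsOrder Λ) {X : Submodule Λ M} (hX : IsLat X) :
    ∃ (k : ℕ) (M' : Type u) (_ : AddCommGroup M') (_ : Module A M') (j : M' →ₗ[A] (Fin k → A))
      (π : (Fin k → A) →ₗ[A] M) (X' : Submodule Λ M') (a : X' →ₗ[Λ] (Fin k → Λ))
      (b : (Fin k → Λ) →ₗ[Λ] X), SES j π ∧ SES a b ∧ IsLat X' ∧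
      (∀ x, incl Λ k (a x) = j x) ∧ ∀ v, π (incl Λ k v) = b v := by
  have := o.noeth
  have := o.fin
  have hF : Module.Finite Λ X := Module.Finite.of_fg hX.fg
  obtain ⟨k, b, hb⟩ := Module.Finite.exists_fin' Λ X
  obtain ⟨π, hπ⟩ := ext_free (X.subtype ∘ₗ b)
  have hs : Surjective π := by
    intro m
    obtain ⟨h, h0, hh⟩ := hX.den m
    obtain ⟨v, hv⟩ := hb ⟨_, hh⟩
    obtain ⟨u, hu⟩ := o.unit h h0
    refine ⟨((u⁻¹ : Aˣ) : A) • incl Λ k v, ?_⟩
    rw [map_smul, hπ, LinearMap.comp_apply, hv]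
    change ((u⁻¹ : Aˣ) : A) • algebraMap R A h • m = m
    rw [← hu, ← mul_smul, Units.inv_mul, one_smul]
  let M' := LinearMap.ker π
  let X' : @Submodule Λ M' _ _ (Subalgebra.moduleLeft Λ) :=
    { carrier := {x | ∀ i, (x : Fin k → A) i ∈ Λ}
      add_mem' := fun ha hb i => Λ.add_mem (ha i) (hb i)
      zero_mem' := fun i => Λ.zero_mem
      smul_mem' := fun c x hx i => Λ.mul_mem c.2 (hx i) }
  let a : X' →ₗ[Λ] (Fin k → Λ) :=
    { toFun := fun x i => ⟨_, x.2 i⟩
      map_add' := fun _ _ => rfl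
      map_smul' := fun _ _ => rfl }
  have ha : Injective a := fun x y h =>
    Subtype.ext (Subtype.ext (funext fun i => congrArg Subtype.val (congrFun h i)))
  have hN : IsNoetherianRing Λ := isNoetherian_of_tower R inferInstance
  have hF' : Module.Finite Λ X' := Module.Finite.of_injective a ha
  refine ⟨k, M', inferInstance, inferInstance, M'.subtype, π, X', a, b, ses_ker π hs,
    ⟨ha, fun v => ⟨fun h => ?_, ?_⟩, hb⟩, ⟨Module.Finite.iff_fg.1 hF', fun m => ?_⟩,
    fun _ => rfl, hπ⟩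
  · refine ⟨⟨⟨incl Λ k v, ?_⟩, fun i => (v i).2⟩, rfl⟩
    rw [LinearMap.mem_ker, hπ, LinearMap.comp_apply, h, map_zero]
  · rintro ⟨x, rfl⟩
    apply Subtype.ext
    exact (hπ (a x)).symm.trans x.1.2
  · obtain ⟨h, h0, hh⟩ := o.den_fin Finset.univ (m : Fin k → A)
    exact ⟨h, h0, fun i => hh i (Finset.mem_univ i)⟩

/-- Finite projective dimension spreads out. -/
theorem IsOrder.upper (o : IsOrder Λ) (n : ℕ) : ∀ (M : Type u) [AddCommGroup M] [Module A M]
    (X : Submodule Λ M), IsLat X → PdLT A M (n + 1) →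
    ∃ g : R, g ≠ 0 ∧ ∀ f : R, f ≠ 0 → IsCoprime f g → PdLT Λ (Q Λ f X) (n + 2) := by
  induction n with
  | zero =>
    intro M _ _ X hX hM
    obtain ⟨k, M', _, _, j, π, X', a, b, s1, s2, -, -, hb⟩ := o.present hX
    have hP : Module.Projective A M := pdLT_one_iff.1 hM
    obtain ⟨s, hs⟩ := Module.projective_lifting_property π LinearMap.id s1.surj
    obtain ⟨t, ht⟩ := hX.fg
    obtain ⟨g, g0, hg⟩ := o.den_fin (t ×ˢ (Finset.univ : Finset (Fin k)))
      fun p => s p.1 p.2
    have hg' : ∀ x ∈ X, ∀ i, algebraMap R A g * s x i ∈ Λ := by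
      intro x hx
      rw [← ht] at hx
      induction hx using Submodule.span_induction with
      | mem x hx => exact fun i => hg (x, i) (Finset.mem_product.2 ⟨hx, Finset.mem_univ _⟩)
      | zero => intro i; rw [map_zero, Pi.zero_apply, mul_zero]; exact Λ.zero_mem
      | add x y _ _ hx hy =>
        intro i; rw [map_add, Pi.add_apply, mul_add]; exact Λ.add_mem (hx i) (hy i)
      | smul c x _ hx =>
        intro i
        rw [Subalgebra.smul_def, map_smul, Pi.smul_apply, smul_eq_mul, ← mul_assoc,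
          Algebra.commutes, mul_assoc]
        exact Λ.mul_mem c.2 (hx i)
    let i0 : X →ₗ[Λ] (Fin k → Λ) :=
      { toFun := fun x i => ⟨_, hg' x x.2 i⟩
        map_add' := fun x y => funext fun i => Subtype.ext (by
          change _ * s (x + y) i = _ * s x i + _ * s y i
          rw [map_add, Pi.add_apply, mul_add])
        map_smul' := fun c x => funext fun i => Subtype.ext (by
          change _ * s ((c : A) • (x : M)) i = (c : A) * (_ * s x i)
          rw [map_smul, Pi.smul_apply, smul_eq_mul, ← mul_assoc, Algebra.commutes, mul_assoc]) }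
    have hi : ∀ x, b (i0 x) = sm (A := Λ) g X x := by
      intro x
      apply Subtype.ext
      rw [← hb]
      change π (algebraMap R A g • s x) = algebraMap R A g • (x : M)
      rw [map_smul]
      exact congrArg _ (LinearMap.congr_fun hs x)
    refine ⟨g, g0, fun f f0 ⟨p, q, hpq⟩ => ?_⟩
    refine pdLT_retract (Q.map f i0) (Q.map f (sm (A := Λ) q X ∘ₗ b)) ?_
      (Q.pdLT_two f (o.sm_inj' f0 k))
    ext x
    change (Submodule.Quotient.mk (sm (A := Λ) q X (b (i0 x))) : Q Λ f X) = Submodule.Quotient.mk x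
    rw [hi, Submodule.Quotient.eq]
    refine ⟨sm (A := Λ) (-p) X x, ?_⟩
    simp only [sm_apply, ← mul_smul, ← map_mul]
    rw [eq_sub_iff_add_eq]
    nth_rewrite 2 [← one_smul Λ x]
    rw [← add_smul, ← map_one (algebraMap R Λ), ← map_add, ← hpq]
    congr 2
    ring
  | succ n ih =>
    intro M _ _ X hX hM
    obtain ⟨k, M', _, _, j, π, X', a, b, s1, s2, hX', -, -⟩ := o.present hX
    obtain ⟨g, g0, hg⟩ := ih M' X' hX' (s1.pdLT₁ (PdLT.of_projective.mono (by omega)) hM)
    exact ⟨g, g0, fun f f0 hc => (Q.ses f s2 (o.sm_inj f0 X)).pdLT₃ (hg f f0 hc)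
      ((Q.pdLT_two f (o.sm_inj' f0 k)).mono (by omega))⟩

/-- The projective dimension of a reduction bounds the generic one. -/
theorem IsOrder.lower (o : IsOrder Λ) {f : R} (f0 : f ≠ 0) (hf : ¬ IsUnit f) (n : ℕ) :
    ∀ (M : Type u) [AddCommGroup M] [Module A M] (X : Submodule Λ M), IsLat X →
      PdLT Λ (Q Λ f X) (n + 2) → PdLT A M (n + 1) := by
  induction n with
  | zero =>
    intro M _ _ X hX hQ
    have := o.noeth
    have := o.fin
    have := o.art
    obtain ⟨k, M', _, _, j, π, X', a, b, s1, s2, hX', ha, hb⟩ := o.present hX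
    let c : (Fin k → Λ) →ₗ[Λ] Q Λ f X := (LinearMap.range (sm (A := Λ) f X)).mkQ ∘ₗ b
    have hc : Surjective c := (Submodule.mkQ_surjective _).comp s2.surj
    let Y := LinearMap.ker c
    have hY : Module.Projective Λ Y :=
      pdLT_one_iff.1 ((ses_ker c hc).pdLT₁ PdLT.of_projective hQ)
    have hYm : ∀ v, v ∈ Y ↔ b v ∈ LinearMap.range (sm (A := Λ) f X) := fun v =>
      Submodule.Quotient.mk_eq_zero _
    let e := LinearEquiv.ofInjective _ (o.sm_inj f0 X)
    let ρ : Y →ₗ[Λ] X := e.symm.toLinearMap ∘ₗ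
      (b ∘ₗ Y.subtype).codRestrict _ fun y => (hYm y).1 y.2
    have hρ : ∀ y : Y, sm (A := Λ) f X (ρ y) = b y := fun y =>
      congrArg Subtype.val (e.apply_symm_apply _)
    obtain ⟨α, hα⟩ := Module.projective_lifting_property b ρ s2.surj
    have hα' : ∀ y, b (α y) = ρ y := fun y => LinearMap.congr_fun hα y
    let μ : (Fin k → Λ) →ₗ[Λ] Y := (sm (A := Λ) f _).codRestrict _ fun v =>
      (hYm _).2 ⟨b v, (map_sm b f v).symm⟩
    let τ : (Fin k → Λ) →ₗ[Λ] (Fin k → Λ) := (Y.subtype - sm (A := Λ) f _ ∘ₗ α) ∘ₗ μ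
    have hτ : ∀ v, b (τ v) = 0 := by
      intro v
      change b ((μ v : Fin k → Λ) - sm (A := Λ) f _ (α (μ v))) = 0
      rw [map_sub, map_sm, hα', hρ, sub_self]
    -- injectivity on the kernel lattice
    let Z := LinearMap.ker b
    have hZY : Z ≤ Y := fun v hv => (hYm v).2 (by rw [LinearMap.mem_ker.1 hv]; exact zero_mem _)
    let α' : Z →ₗ[Λ] Z := (α ∘ₗ Submodule.inclusion hZY).codRestrict _ fun z => by
      rw [LinearMap.mem_ker, LinearMap.comp_apply, hα']
      apply o.sm_inj f0 X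
      rw [hρ, map_zero]
      exact z.2
    have hZ : Module.Finite R Z :=
      Module.Finite.of_injective (Z.subtype.restrictScalars R) Subtype.val_injective
    have hinj : ∀ v, b v = 0 → τ v = 0 → v = 0 := by
      intro v hv h0
      have h1 : μ v = sm (A := Λ) f Y ⟨v, hZY hv⟩ := rfl
      have h2 : sm (A := Λ) f _ (v - sm (A := Λ) f _ (α ⟨v, hZY hv⟩)) = 0 := by
        rw [← h0, map_sub, ← map_sm α, ← h1]
        rfl
      have h3 := o.sm_inj' f0 k (h2.trans (map_zero _).symm)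
      have h4 := inj_one_sub (B := Λ) (Z := Z) (fun r r0 z hz => Subtype.ext (o.sm_inj' r0 k (by
        rw [ZeroMemClass.coe_zero, map_zero, sm_apply, algebraMap_smul]
        exact congrArg Subtype.val hz))) hf α' ⟨v, hv⟩ (Subtype.ext (by
          rw [sub_eq_zero, sm_apply, algebraMap_smul] at h3
          exact h3))
      exact congrArg Subtype.val h4
    obtain ⟨τA, hτA⟩ := ext_free (incl Λ k ∘ₗ τ)
    have hπτ : ∀ w, τA w ∈ LinearMap.range j := by
      intro w
      obtain ⟨h, h0, hh⟩ := o.den_fin Finset.univ w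
      refine (s1.exact _).1 (o.smul_inj h0 ?_)
      have h1 : algebraMap R A h • w = incl Λ k fun i => ⟨_, hh i (Finset.mem_univ i)⟩ := rfl
      rw [← map_smul, ← map_smul, h1, hτA, LinearMap.comp_apply, hb, hτ]
      rfl
    let ej := LinearEquiv.ofInjective j s1.inj
    let r0 : (Fin k → A) →ₗ[A] M' := ej.symm.toLinearMap ∘ₗ τA.codRestrict _ hπτ
    have hr0 : ∀ w, j (r0 w) = τA w := fun w => congrArg Subtype.val (ej.apply_symm_apply _)
    have hT : Injective (r0 ∘ₗ j) := by
      rw [injective_iff_map_eq_zero]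
      intro m hm
      obtain ⟨h, h0, hh⟩ := hX'.den m
      refine o.smul_inj h0 (s1.inj ?_)
      have h1 := ha ⟨_, hh⟩
      have h2 : τ (a ⟨_, hh⟩) = 0 := by
        apply incl_inj
        rw [← LinearMap.comp_apply, ← hτA, h1, ← hr0, ← LinearMap.comp_apply r0]
        change j ((r0 ∘ₗ j) (algebraMap R A h • m)) = _
        rw [map_smul, hm, smul_zero, map_zero, map_zero]
      have h3 := hinj _ ((s2.exact _).2 ⟨_, rfl⟩) h2
      rw [map_zero]
      exact h1.symm.trans (by rw [h3, map_zero])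
    have hart : IsArtinian A M' := isArtinian_of_injective j s1.inj
    let T := LinearEquiv.ofBijective (r0 ∘ₗ j) (IsArtinian.bijective_of_injective_endomorphism _ hT)
    have hP : Module.Projective A M := projective_of_retraction s1 (T.symm.toLinearMap ∘ₗ r0) (by
      ext m
      exact T.symm_apply_apply m)
    exact PdLT.of_projective
  | succ n ih =>
    intro M _ _ X hX hQ
    obtain ⟨k, M', _, _, j, π, X', a, b, s1, s2, hX', -, -⟩ := o.present hX
    exact s1.pdLT₃ (ih M' X' hX' ((Q.ses f s2 (o.sm_inj f0 X)).pdLT₁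
      ((Q.pdLT_two f (o.sm_inj' f0 k)).mono (by omega)) hQ)) (PdLT.of_projective.mono (by omega))

end lat

end Vale.Agent.N176
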