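import Vale.Agent.N176.Quant

/-!
# P176: every field, every artinian base ring, finite rings
-/

namespace Vale.Agent.N176

open Vale.Agent.P176 Vale.Agent.P176.HMod Vale.Agent.P176.H807 CategoryTheory Function

universe u

/-- All projective dimensions occur. -/
theorem exact_pd {A : Type u} [Ring A] [IsNoetherianRing A] (h : findim A = ⊤) (n : ℕ) :
    ∃ N : ModuleCat.{u} A, Module.Finite A N ∧ projectiveDimension N = n := by
  have key : ∀ (k : ℕ) (M : Type u) [AddCommGroup M] [Module A M], Module.Finite A M →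
      PdLT A M (n + k + 1) → ¬ PdLT A M (n + k) →
      ∃ N : ModuleCat.{u} A, Module.Finite A N ∧ projectiveDimension N = n := by
    intro k
    induction k with
    | zero =>
      intro M _ _ h1 h2 h3
      exact ⟨ModuleCat.of A M, h1, le_antisymm ((projectiveDimension_le_iff _ n).2 h2)
        ((projectiveDimension_ge_iff _ n).2 h3)⟩
    | succ k ih =>
      intro M _ _ h1 h2 h3
      obtain ⟨l, g, hg⟩ := Module.Finite.exists_fin' A M
      have s := ses_ker g hg
      exact ih _ inferInstance (s.pdLT₁ (PdLT.of_projective.mono (by omega)) h2)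
        fun h4 => h3 (s.pdLT₃ h4 (PdLT.of_projective.mono (by omega)))
  obtain ⟨M, _, _, q, h1, h2, h3, h4⟩ := exists_of_findim_top h n
  obtain ⟨k, rfl⟩ := Nat.exists_eq_add_of_le (show n ≤ q by omega)
  exact key k M h1 h3 h4

theorem sup_top {A : Type u} [Ring A]
    (h : ∀ n : ℕ, ∃ N : ModuleCat.{u} A, Module.Finite A N ∧ projectiveDimension N = n) :
    ¬ (⨆ (N : ModuleCat.{u} A) (_ : Module.Finite A N) (_ : projectiveDimension N < ⊤),
      projectiveDimension N) < ⊤ := by
  intro h1
  obtain ⟨n, hn⟩ : ∃ n : ℕ, (⨆ (N : ModuleCat.{u} A) (_ : Module.Finite A N)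
      (_ : projectiveDimension N < ⊤), projectiveDimension N) ≤ n := by
    generalize (⨆ (N : ModuleCat.{u} A) (_ : Module.Finite A N)
      (_ : projectiveDimension N < ⊤), projectiveDimension N) = d at h1
    induction d with
    | bot => exact ⟨0, bot_le⟩
    | coe d =>
      induction d with
      | top => exact absurd h1 (lt_irrefl _)
      | coe d => exact ⟨d, le_rfl⟩
  obtain ⟨N, h2, h3⟩ := h (n + 1)
  have h4 : projectiveDimension N < ⊤ := by
    rw [h3]
    exact WithBot.coe_lt_coe.2 (ENat.natCast_lt_top _)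
  have h5 := (le_iSup₂_of_le (f := fun (N : ModuleCat.{u} A) (_ : Module.Finite A N) =>
    ⨆ _ : projectiveDimension N < ⊤, projectiveDimension N) N h2
      (le_iSup (fun _ : projectiveDimension N < ⊤ => projectiveDimension N) h4)).trans hn
  rw [h3] at h5
  exact absurd (Nat.cast_le.1 h5) (by omega)

theorem field_all (K : Type u) [Field K] : ∃ (A : Type u) (_ : Ring A) (_ : Algebra K A),
    FiniteDimensional K A ∧ Nonempty (A ≃ₐ[K] Aᵐᵒᵖ) ∧
      ∀ n : ℕ, ∃ N : ModuleCat.{u} A, Module.Finite A N ∧ projectiveDimension N = n := by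
  obtain ⟨B, _, _, h1, h2⟩ := every_field K
  have h3 : Module.Finite K Bᵐᵒᵖ := Module.Finite.equiv (MulOpposite.opLinearEquiv K)
  have h4 : IsNoetherianRing (B × Bᵐᵒᵖ) := isNoetherian_of_tower K inferInstance
  exact ⟨B × Bᵐᵒᵖ, inferInstance, inferInstance, inferInstance, ⟨selfOp K B⟩,
    exact_pd (findim_prod h2)⟩

theorem artin_all (R : Type u) [CommRing R] [IsArtinianRing R] [Nontrivial R] :
    ∃ (A : Type u) (_ : Ring A) (_ : Algebra R A), Module.Finite R A ∧
      Injective (algebraMap R A) ∧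
      ∀ n : ℕ, ∃ N : ModuleCat.{u} A, Module.Finite A N ∧ projectiveDimension N = n := by
  obtain ⟨m, hm⟩ := Ideal.exists_maximal R
  let _ := Ideal.Quotient.field m
  obtain ⟨B, _, _, h1, h2⟩ := every_field (R ⧸ m)
  let _ : Algebra R B := Algebra.compHom B (algebraMap R (R ⧸ m))
  have i1 : IsScalarTower R (R ⧸ m) B := IsScalarTower.of_algebraMap_eq fun _ => rfl
  have h3 : Module.Finite R B := Module.Finite.trans (R ⧸ m) B
  have h4 : IsNoetherianRing (B × R) := isNoetherian_of_tower R inferInstance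
  have h5 : Module.Projective (B × R) (Res (RingHom.fst B R) B) :=
    proj_of_section
      { toFun := fun a => (a, 0), map_zero' := rfl, map_add' := fun x y => by simp }
      (fun a => rfl) (fun r a => by ext <;> simp)
  exact ⟨B × R, inferInstance, inferInstance, inferInstance, fun x y h => congrArg Prod.snd h,
    exact_pd (findim_top_of_surj (φ := RingHom.fst B R) (fun a => ⟨(a, 0), rfl⟩) h2)⟩

theorem finite_all (m : ℕ) (hm : 2 ≤ m) : ∃ (A : Type u) (_ : Ring A), Finite A ∧ CharP A m ∧
    ∀ n : ℕ, ∃ N : ModuleCat.{u} A, Finite N ∧ projectiveDimension N = n := by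
  have : Fact (1 < m) := ⟨hm⟩
  have : NeZero m := ⟨by omega⟩
  obtain ⟨A, _, _, h1, h2, h3⟩ := artin_all (ULift.{u} (ZMod m))
  have h4 : Finite A := Module.finite_of_finite (ULift.{u} (ZMod m))
  refine ⟨A, inferInstance, h4, charP_of_injective_algebraMap h2 m, fun n => ?_⟩
  obtain ⟨N, h5, h6⟩ := h3 n
  exact ⟨N, Module.finite_of_finite A, h6⟩

end Vale.Agent.N176
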