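import Vale.Agent.N176.Desc
import Vale.Agent.P176.H231.All

/-!
# P176: the quantum counterexample is split
-/

set_option linter.unusedSectionVars false

namespace Vale.Agent.N176

open Vale.Agent.P195Q Vale.Agent.P195Q.Van Vale.Agent.P195Q.Weyl Function

universe u

section lin

variable {S P X Y : Type*} [Ring S] [AddCommGroup P] [Module S P] [AddCommGroup X] [Module S X]
  [AddCommGroup Y] [Module S Y]

theorem nil_post {A W : Type*} [Ring A] [AddCommGroup W] [Module A W] (l : W → (P →ₗ[S] X))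
    (hl : Injective l) (l0 : l 0 = 0) (T : Module.End A W) (g : Module.End S X)
    (h : ∀ w, l (T w) = g ∘ₗ l w) (hg : IsNilpotent g) : IsNilpotent T := by
  obtain ⟨n, hn⟩ := hg
  have key : ∀ (k : ℕ) (w : W), l ((T ^ k) w) = (g ^ k) ∘ₗ l w := by
    intro k
    induction k with
    | zero => exact fun _ => rfl
    | succ k ih =>
      intro w
      rw [pow_succ', pow_succ', Module.End.mul_apply, h, ih]
      rfl
  exact ⟨n, LinearMap.ext fun w => hl (by
    rw [key, hn, LinearMap.zero_comp, LinearMap.zero_apply, l0])⟩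

theorem nil_prod {a : Module.End S X} {b : Module.End S Y} (ha : IsNilpotent a)
    (hb : IsNilpotent b) : IsNilpotent (a.prodMap b : Module.End S (X × Y)) := by
  obtain ⟨m, hm⟩ := ha
  obtain ⟨n, hn⟩ := hb
  have key : ∀ k : ℕ, (a.prodMap b : Module.End S (X × Y)) ^ k = (a ^ k).prodMap (b ^ k) := by
    intro k
    induction k with
    | zero => rfl
    | succ k ih => rw [pow_succ, ih, pow_succ, pow_succ]; rfl
  refine ⟨m + n, ?_⟩
  rw [key, pow_add, hm, zero_mul, pow_add, hn, mul_zero]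
  ext <;> simp

/-- the diagonal entry -/
def sym (b : (X × X) →ₗ[S] (Y × Y)) : X →ₗ[S] Y :=
  LinearMap.fst S Y Y ∘ₗ b ∘ₗ LinearMap.inl S X X

theorem sym_fst {b : (X × X) →ₗ[S] (Y × Y)} (h : ∀ z, b (0, z.1) = (0, (b z).1)) (z : X × X) :
    (b z).1 = sym b z.1 :=
  congrArg Prod.snd ((h z).symm.trans (h (z.1, 0)))

theorem nil_sym {b : Module.End S (X × X)} (h : ∀ z, b (0, z.1) = (0, (b z).1))
    (hb : IsNilpotent (sym b : Module.End S X)) : IsNilpotent b := by
  obtain ⟨n, hn⟩ := hb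
  have key : ∀ (k : ℕ) (z : X × X), ((b ^ k) z).1 = ((sym b : Module.End S X) ^ k) z.1 ∧
      (b ^ k) (0, z.1) = (0, ((sym b : Module.End S X) ^ k) z.1) := by
    intro k
    induction k with
    | zero => exact fun _ => ⟨rfl, rfl⟩
    | succ k ih =>
      intro z
      rw [pow_succ', pow_succ', Module.End.mul_apply, Module.End.mul_apply, Module.End.mul_apply,
        sym_fst h, (ih z).1, (ih z).2]
      exact ⟨rfl, h (_, 0)⟩
  refine ⟨n + n, LinearMap.ext fun z => ?_⟩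
  have h1 : (b ^ n) z = (0, ((b ^ n) z).2) := Prod.ext (by rw [(key n z).1, hn]; rfl) rfl
  rw [pow_add, Module.End.mul_apply, h1, (key n (_, 0)).2, hn]
  rfl

end lin

variable {K : Type u} [Field K] [QPar K]

theorem V_zero {w d : ℤ} {f : D K} (hf : f ∈ V K w d) (h : d < 0 ∨ w + d < 0) : f = 0 := by
  rw [mem_V] at hf
  ext m
  by_contra hm
  have h1 := hf m hm
  have h2 := kdeg_nonneg m
  have h3 := xdeg_nonneg m
  omega

theorem IsG_sub {A : GM K} {φ : A.X →ₗ[K] A.X} (h : IsG A A φ) (c : K) :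
    IsG A A (φ - c • (1 : Module.End K A.X)) := by
  rw [sub_eq_add_neg]
  exact h.add ((IsG.id A).smul c).neg

theorem OO_val {a b : ℤ} {Z : GM K} {φ : D K →ₗ[K] Z.X} (h : IsG (OO K a b) Z φ) :
    φ 1 ∈ Z.F (-a) (-b) := h.F _ _ _ (OO_gen_mem a b).1

theorem OO_zero {a b a' b' : ℤ} {φ : D K →ₗ[K] D K} (h : IsG (OO K a b) (OO K a' b') φ)
    (hb : b' + -b < 0 ∨ a' + -a + (b' + -b) < 0) : φ = 0 :=
  OO_ext h (IsG.zero _ _) (V_zero (OO_val h) hb)

theorem OO_end {a b : ℤ} {φ : D K →ₗ[K] D K} (h : IsG (OO K a b) (OO K a b) φ) :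
    ∃ c : K, IsNilpotent (φ - c • 1 : Module.End K (D K)) := by
  obtain ⟨c, hc⟩ := V_zero_zero (cV (OO_val h) (add_neg_cancel a) (add_neg_cancel b))
  refine ⟨c, ?_⟩
  rw [OO_ext (IsG_sub h c) (IsG.zero _ _) (sub_eq_zero.2 hc)]
  exact IsNilpotent.zero

theorem GG_val {b : ℤ} (hb : b ≤ 2) {Z : GM K} {φ : (D K × D K) →ₗ[K] Z.X}
    (h : IsG (Van.GG K b) Z φ) : φ (1, 0) ∈ Z.F 0 (-b) ∧ φ (0, 1) ∈ Z.F 0 (-b) ∧
      Z.x 1 (φ (1, 0)) - Z.x 0 (φ (0, 1)) ∈ Z.F 1 (-2) := h.gW (GG_gen_mem hb)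

theorem GG_jj {b : ℤ} {Z : GM K} {φ : (D K × D K) →ₗ[K] Z.X} (h : IsG (Van.GG K b) Z φ)
    (h0 : Z.x 1 (φ (1, 0)) - Z.x 0 (φ (0, 1)) = 0) (g : D K) : φ (jj g) = 0 := by
  refine LinearMap.congr_fun (OO_ext (h.comp (isG_jjG b)) (IsG.zero _ _) ?_) g
  rw [← h.x, ← h.x, ← map_sub] at h0
  exact (congrArg φ jj_one).trans h0

theorem kos_zero {p q : D K} (h : Lx 1 p - Lx 0 q ∈ V K 0 0) : Lx 1 p - Lx 0 q = 0 := by
  obtain ⟨c, hc⟩ := V_zero_zero h
  have h1 := congrArg (eps K) hc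
  rw [map_sub, eps_Lx, eps_Lx, sub_zero, map_smul, eps_one, smul_eq_mul, mul_one] at h1
  rw [hc, ← h1, zero_smul]

theorem GO_zero {b c : ℤ} (hb : b ≤ 2) (hc : c ≤ 1) (hcb : c ≤ b) {φ : (D K × D K) →ₗ[K] D K}
    (h : IsG (Van.GG K b) (OO K 0 c) φ) : φ = 0 := by
  obtain ⟨h0, -, h2⟩ := GG_val hb h
  obtain ⟨z, hz, e0, e1⟩ := Lx_kos (w := -1) (cV h0 (by norm_num) rfl)
    (sub_eq_zero.1 (V_zero h2 (by omega)))
  rw [V_zero hz (by omega), map_zero] at e0 e1
  exact GG_ext h (IsG.zero _ _) e0 e1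

theorem OG_val {a c b : ℤ} (hcb : b < c) {φ : D K →ₗ[K] D K × D K}
    (h : IsG (OO K a c) (Van.GG K b) φ) : ∃ g ∈ V K (-a - 1) (-c + 2), φ 1 = jj g := by
  have h1 := mem_GG.1 (OO_val h)
  exact exists_jj h1.1.2 (V_zero h1.2 (by omega))

theorem OGO {a c b : ℤ} (hcb : b < c) {φ : D K →ₗ[K] D K × D K} {ψ : (D K × D K) →ₗ[K] D K}
    (h : IsG (OO K a c) (Van.GG K b) φ) (h' : IsG (Van.GG K b) (OO K a c) ψ)
    (h0 : Lx 1 (ψ (1, 0)) - Lx 0 (ψ (0, 1)) = 0) : ψ ∘ₗ φ = 0 := by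
  obtain ⟨g, -, hg⟩ := OG_val hcb h
  exact OO_ext (h'.comp h) (IsG.zero _ _) ((congrArg ψ hg).trans (GG_jj h' h0 g))

theorem GG_rad {b b' : ℤ} (hb : b ≤ 2) {φ : (D K × D K) →ₗ[K] D K × D K}
    (h : IsG (Van.GG K b) (Van.GG K b') φ) (h0 : mu (φ (1, 0)) = 0) (h1 : mu (φ (0, 1)) = 0) :
    (∀ g, φ (jj g) = 0) ∧ ∃ z ∈ V K (-2) (-b + 2),
      φ (1, 0) = jj (Lx 0 z) ∧ φ (0, 1) = jj (Lx 1 z) := by
  obtain ⟨v0, v1, v2⟩ := GG_val hb h
  obtain ⟨p, hp, e0⟩ := exists_jj (mem_GG.1 v0).1.2 h0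
  obtain ⟨q, -, e1⟩ := exists_jj (mem_GG.1 v1).1.2 h1
  have e2 : Lx2 1 (φ (1, 0)) - Lx2 0 (φ (0, 1)) = jj (Lx 1 p - Lx 0 q) := by
    rw [e0, e1, map_sub, jj_Lx, jj_Lx]
  have v3 : jj (Lx 1 p - Lx 0 q) ∈ Weyl.GG K b' 1 (-2) := e2 ▸ v2
  have e3 := kos_zero ((Rx_mem_iff 1).1 (cV (mem_GG.1 v3).1.1 (by norm_num) (by norm_num)))
  obtain ⟨z, hz, f0, f1⟩ := Lx_kos (w := -2) (cV hp (by norm_num) rfl) (sub_eq_zero.1 e3)
  exact ⟨GG_jj h (e2.trans (by rw [e3, map_zero])), z, hz, f0 ▸ e0, f1 ▸ e1⟩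

theorem GG_end {b : ℤ} (hb : b ≤ 1) {φ : (D K × D K) →ₗ[K] D K × D K}
    (h : IsG (Van.GG K b) (Van.GG K b) φ) :
    ∃ c : K, IsNilpotent (φ - c • 1 : Module.End K (D K × D K)) := by
  obtain ⟨h0, -, h2⟩ := GG_val (by omega) ((isG_muG b).comp h)
  obtain ⟨z, hz, e0, e1⟩ := Lx_kos (w := 0) (d := 0) (cV h0 (by norm_num) (add_neg_cancel b))
    (sub_eq_zero.1 (V_zero h2 (by omega)))
  obtain ⟨c, rfl⟩ := V_zero_zero hz
  have h' := IsG_sub h c
  obtain ⟨k, z, -, f0, f1⟩ := GG_rad (by omega) h'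
    (by rw [LinearMap.sub_apply, map_sub, sub_eq_zero]; exact e0.trans (by simp))
    (by rw [LinearMap.sub_apply, map_sub, sub_eq_zero]; exact e1.trans (by simp))
  refine ⟨c, 2, ?_⟩
  rw [pow_two]
  exact GG_ext (h'.comp h') (IsG.zero _ _) ((congrArg _ f0).trans (k _))
    ((congrArg _ f1).trans (k _))

theorem G10 {φ : (D K × D K) →ₗ[K] D K × D K} (h : IsG (Van.GG K 1) (Van.GG K 0) φ) : φ = 0 := by
  obtain ⟨h0, h1, -⟩ := GG_val (by norm_num) h
  obtain ⟨-, z, hz, f0, f1⟩ := GG_rad (by norm_num) h (V_zero (mem_GG.1 h0).2 (by norm_num))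
    (V_zero (mem_GG.1 h1).2 (by norm_num))
  rw [V_zero hz (by norm_num), map_zero, map_zero] at f0 f1
  exact GG_ext h (IsG.zero _ _) f0 f1

theorem O2G {b : ℤ} (hb : b < 2) {φ : D K →ₗ[K] D K × D K} (h : IsG (OO K 0 2) (Van.GG K b) φ) :
    φ = 0 := by
  obtain ⟨g, hg, e⟩ := OG_val hb h
  rw [V_zero hg (by norm_num), map_zero] at e
  exact OO_ext h (IsG.zero _ _) e

theorem TT_end (i : Fin 6) {φ : (TT K i).X →ₗ[K] (TT K i).X} (h : IsG (TT K i) (TT K i) φ) :
    ∃ c : K, IsNilpotent (φ - c • 1 : Module.End K (TT K i).X) := by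
  fin_cases i
  exacts [OO_end h, OO_end h, OO_end h, GG_end (by norm_num) h, GG_end le_rfl h, OO_end h]

theorem TT_lt {i j : Fin 6} (hij : i < j) {φ : (TT K i).X →ₗ[K] (TT K j).X}
    {ψ : (TT K j).X →ₗ[K] (TT K i).X} (h : IsG (TT K i) (TT K j) φ)
    (h' : IsG (TT K j) (TT K i) ψ) : ψ ∘ₗ φ = 0 ∨ φ ∘ₗ ψ = 0 := by
  have l : φ = 0 → ψ ∘ₗ φ = 0 ∨ φ ∘ₗ ψ = 0 := fun e => Or.inl (by rw [e, LinearMap.comp_zero])
  have r : ψ = 0 → ψ ∘ₗ φ = 0 ∨ φ ∘ₗ ψ = 0 := fun e => Or.inl (by rw [e, LinearMap.zero_comp])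
  fin_cases i <;> fin_cases j <;> first | exact absurd hij (by decide) | skip
  · exact r (OO_zero h' (by norm_num))
  · exact r (OO_zero h' (by norm_num))
  · exact r (GO_zero (by norm_num) (by norm_num) (by norm_num) h')
  · exact r (GO_zero (by norm_num) (by norm_num) (by norm_num) h')
  · exact r (OO_zero h' (by norm_num))
  · exact r (OO_zero h' (by norm_num))
  · exact Or.inl (OGO (by norm_num) h h' (V_zero (GG_val (by norm_num) h').2.2 (by norm_num)))
  · exact r (GO_zero (by norm_num) (by norm_num) (by norm_num) h')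
  · exact r (OO_zero h' (by norm_num))
  · exact l (O2G (by norm_num) h)
  · exact l (O2G (by norm_num) h)
  · exact l (OO_zero h (by norm_num))
  · exact r (G10 h')
  · exact Or.inr (OGO (by norm_num) h' h
      (kos_zero (cV (GG_val (by norm_num) h).2.2 (by norm_num) (by norm_num))))
  · exact Or.inr (OGO (by norm_num) h' h
      (kos_zero (cV (GG_val (by norm_num) h).2.2 (by norm_num) (by norm_num))))

theorem TT_ne {i j : Fin 6} (hij : i ≠ j) {φ : (TT K i).X →ₗ[K] (TT K j).X}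
    {ψ : (TT K j).X →ₗ[K] (TT K i).X} (h : IsG (TT K i) (TT K j) φ)
    (h' : IsG (TT K j) (TT K i) ψ) : IsNilpotent (ψ ∘ₗ φ : Module.End K (TT K i).X) := by
  have key : ψ ∘ₗ φ = 0 ∨ φ ∘ₗ ψ = 0 := by
    rcases lt_or_gt_of_ne hij with h1 | h1
    · exact TT_lt h1 h h'
    · exact (TT_lt h1 h' h).symm
  rcases key with e | e
  · rw [e]; exact IsNilpotent.zero
  · exact ⟨2, LinearMap.ext fun x =>
      (congrArg ψ (LinearMap.congr_fun e (φ x))).trans (map_zero ψ)⟩

theorem nil_map {M : EM K} {a : M.A.X →ₗ[K] M.A.X} {b : M.B.X →ₗ[K] M.B.X} (e : IsE M M a b)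
    (c : K) (ha : IsNilpotent (a - c • 1 : Module.End K M.A.X))
    (hb : IsNilpotent (b - c • 1 : Module.End K M.B.X)) :
    IsNilpotent (Md.map e - sm (A := RR K) c (Md M) : Module.End (RR K) (Md M)) := by
  refine nil_post (A := RR K) (W := Md M) (fun w => Win.toLin (P := PP K) (X := M.toF) w)
    (fun _ _ => Win.ext') rfl _ _ (fun w => ?_) (nil_prod ha hb)
  rw [LinearMap.sub_apply, sm_apply, algebraMap_smul]
  rfl

theorem sym_G {A B : GM K} {b : (A.X × A.X) →ₗ[K] (B.X × B.X)} (h : IsG A.ind B.ind b) :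
    IsG A B (sym b) := (isG_fst B B.tau).comp (h.comp (isG_inl A A.tau))

theorem nil_tri {X : Type*} [AddCommGroup X] [Module K X] {b : Module.End K (X × X)}
    (h : ∀ z, b (0, z.1) = (0, (b z).1)) {c : K}
    (hb : IsNilpotent (sym b - c • 1 : Module.End K X)) : IsNilpotent (b - c • 1) :=
  nil_sym (fun z => by simp [h z]) hb

theorem nilJ {A : GM K} {a : A.X →ₗ[K] A.X} {b : (A.X × A.X) →ₗ[K] (A.X × A.X)}
    (e : IsE (EM.J A) (EM.J A) a b) (c : K) (h : IsNilpotent (sym b - c • 1 : Module.End K A.X)) :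
    IsNilpotent (Md.map e - sm (A := RR K) c _ : Module.End (RR K) (Md (EM.J A))) := by
  have h1 : sym b = a := LinearMap.ext fun z => congrArg Prod.fst (e.t z)
  exact nil_map e c (h1 ▸ h) (nil_tri e.r h)

theorem nilJ' {A : GM K} {a : PUnit.{u + 1} →ₗ[K] PUnit.{u + 1}} {b : (A.X × A.X) →ₗ[K] (A.X × A.X)}
    (e : IsE (EM.J' A) (EM.J' A) a b) (c : K)
    (h : IsNilpotent (sym b - c • 1 : Module.End K A.X)) :
    IsNilpotent (Md.map e - sm (A := RR K) c _ : Module.End (RR K) (Md (EM.J' A))) :=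
  nil_map e c ⟨0, LinearMap.ext fun _ => rfl⟩ (nil_tri e.r h)

theorem PE_end (v : Bool × Fin 6) (φ : Module.End (RR K) (Md (PE K v))) :
    ∃ c : K, IsNilpotent (φ - sm (A := RR K) c _) := by
  obtain ⟨a, b, e, rfl⟩ := (PRet_PE v).exists_map φ
  obtain ⟨s, i⟩ := v
  cases s
  · exact (TT_end i (sym_G e.gB)).imp fun c hc => nilJ' e c hc
  · exact (TT_end i (sym_G e.gB)).imp fun c hc => nilJ e c hc

theorem sub_sm_zero {A Y : Type*} [Ring A] [Algebra K A] [AddCommGroup Y] [Module A Y]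
    (φ : Module.End A Y) : φ - sm (A := A) (0 : K) Y = φ := by
  ext y
  rw [LinearMap.sub_apply, sm_apply, map_zero, zero_smul, sub_zero]

theorem sym_comp {X Y : Type*} [AddCommGroup X] [Module K X] [AddCommGroup Y] [Module K Y]
    {b : (X × X) →ₗ[K] (Y × Y)} {b' : (Y × Y) →ₗ[K] (X × X)}
    (h : ∀ z, b' (0, z.1) = (0, (b' z).1)) (hn : IsNilpotent (sym b' ∘ₗ sym b : Module.End K X)) :
    IsNilpotent (sym (b' ∘ₗ b) - (0 : K) • 1 : Module.End K X) := by
  rwa [zero_smul, sub_zero, show sym (b' ∘ₗ b) = sym b' ∘ₗ sym b from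
    LinearMap.ext fun z => sym_fst h _]

theorem PE_ne {v w : Bool × Fin 6} (h : v ≠ w) (φ : Md (PE K v) →ₗ[RR K] Md (PE K w))
    (ψ : Md (PE K w) →ₗ[RR K] Md (PE K v)) :
    IsNilpotent (ψ ∘ₗ φ : Module.End (RR K) (Md (PE K v))) := by
  obtain ⟨a, b, e, rfl⟩ := (PRet_PE v).exists_map φ
  obtain ⟨a', b', e', rfl⟩ := (PRet_PE w).exists_map ψ
  rw [Md.map_comp, ← sub_sm_zero (K := K) (Md.map _)]
  obtain ⟨s, i⟩ := v
  obtain ⟨t, j⟩ := w
  cases s <;> cases t
  · exact nilJ' _ 0 (sym_comp e'.r (TT_ne (fun e => h (by rw [e])) (sym_G e.gB) (sym_G e'.gB)))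
  · refine nilJ' _ 0 (sym_comp e'.r ?_)
    rw [show sym b' = 0 from LinearMap.ext fun z => congrArg Prod.fst (e'.t z),
      LinearMap.zero_comp]
    exact IsNilpotent.zero
  · refine nilJ _ 0 (sym_comp e'.r ?_)
    rw [show sym b = 0 from LinearMap.ext fun z => congrArg Prod.fst (e.t z),
      LinearMap.comp_zero]
    exact IsNilpotent.zero
  · exact nilJ _ 0 (sym_comp e'.r (TT_ne (fun e => h (by rw [e])) (sym_G e.gB) (sym_G e'.gB)))

section gamma

variable {L R : Type u} [Field L] [Ring R] [Algebra L R] {T : Type} [Fintype T] [DecidableEq T]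
  (Z : Option T → Type u) [∀ v, AddCommGroup (Z v)] [∀ v, Module R (Z v)] [∀ v, Module L (Z v)]
  [∀ v, IsScalarTower L R (Z v)]

theorem full_ret {P Y N : Type u} [AddCommGroup P] [Module R P] [AddCommGroup Y] [Module R Y]
    [AddCommGroup N] [Module R N] (i : Y →ₗ[R] P) (p : P →ₗ[R] Y) (hp : p ∘ₗ i = LinearMap.id)
    (h : HM R P Y →ₗ[EndOp R P] HM R P N) : ∃ f : Y →ₗ[R] N, HM.map P f = h := by
  refine ⟨(h (HM.mk p)).lin ∘ₗ i, LinearMap.ext fun φ => HM.ext' ?_⟩
  have h1 : φ = (MulOpposite.op (i ∘ₗ φ.lin) : EndOp R P) • HM.mk p := HM.ext' (by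
    change φ.lin = (p ∘ₗ i) ∘ₗ φ.lin
    rw [hp, LinearMap.id_comp])
  conv_rhs => rw [h1, map_smul]
  rfl

theorem spanned_gamma [Module L (HM R (∀ v, Z (some v)) (Z none))]
    [IsScalarTower L (EndOp R (∀ v, Z (some v))) (HM R (∀ v, Z (some v)) (Z none))]
    [Module.Finite L (Module.End (EndOp R (∀ v, Z (some v)))
      (EndOp R (∀ v, Z (some v)) × HM R (∀ v, Z (some v)) (Z none)))]
    (f1 : ∀ h : HM R (∀ v, Z (some v)) (Z none) →ₗ[EndOp R (∀ v, Z (some v))]
      HM R (∀ v, Z (some v)) (Z none), ∃ f, HM.map _ f = h)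
    (f2 : ∀ h : HM R (∀ v, Z (some v)) (Z none) →ₗ[EndOp R (∀ v, Z (some v))]
      HM R (∀ v, Z (some v)) (∀ v, Z (some v)), ∃ f, HM.map _ f = h)
    (ha : ∀ v (φ : Module.End R (Z v)), ∃ c : L, IsNilpotent (φ - sm (A := R) c _))
    (hb : ∀ v w, v ≠ w → ∀ (φ : Z v →ₗ[R] Z w) (ψ : Z w →ₗ[R] Z v),
      IsNilpotent (ψ ∘ₗ φ : Module.End R (Z v))) :
    Spanned L (Module.End (EndOp R (∀ v, Z (some v)))
      (EndOp R (∀ v, Z (some v)) × HM R (∀ v, Z (some v)) (Z none))) := by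
  set P := ∀ v, Z (some v) with hP
  have hps : ∀ v, (LinearMap.proj v : P →ₗ[R] Z (some v)) ∘ₗ
      LinearMap.single R (fun v => Z (some v)) v = LinearMap.id := fun v =>
    LinearMap.proj_comp_single_same R (fun v => Z (some v)) v
  have full : ∀ v w (h : HM R P (Z v) →ₗ[EndOp R P] HM R P (Z w)), ∃ f, HM.map P f = h := by
    rintro (_ | v) w h
    · cases w with
      | none => exact f1 h
      | some w =>
        obtain ⟨f, hf⟩ := f2 (HM.map P (LinearMap.single R (fun v => Z (some v)) w) ∘ₗ h)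
        refine ⟨LinearMap.proj w ∘ₗ f, ?_⟩
        rw [HM.map_comp, hf, ← LinearMap.comp_assoc, ← HM.map_comp, hps]
        rfl
    · exact full_ret _ _ (hps v) h
  refine spanned_end (fun v => HM R P (Z v))
    (fun v => match v with
      | none => LinearMap.inr _ _ _
      | some v => LinearMap.inl _ _ _ ∘ₗ HM.selfEquiv.toLinearMap ∘ₗ
          HM.map P (LinearMap.single R (fun v => Z (some v)) v))
    (fun v => match v with
      | none => LinearMap.snd _ _ _
      | some v => HM.map P (LinearMap.proj v) ∘ₗ HM.selfEquiv.symm.toLinearMap ∘ₗ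
          LinearMap.fst _ _ _) ?_ ?_ ?_ ?_ ?_
  · rintro (_ | v)
    · rfl
    · exact congrArg (HM.map P) (hps v)
  · rintro (_ | v) (_ | w) h
    · exact absurd rfl h
    · rfl
    · exact LinearMap.ext fun x => HM.ext' (LinearMap.comp_zero _)
    · refine LinearMap.ext fun x => HM.ext' ?_
      change ((LinearMap.proj v : P →ₗ[R] Z (some v)) ∘ₗ
        LinearMap.single R (fun v => Z (some v)) w) ∘ₗ x.lin = 0
      rw [LinearMap.proj_comp_single_ne R (fun v => Z (some v)) v w fun e => h (by rw [e]),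
        LinearMap.zero_comp]
  · intro x
    rw [Fintype.sum_option]
    refine Prod.ext ?_ ?_
    · rw [Prod.fst_add, Prod.fst_sum]
      refine (zero_add _).trans (MulOpposite.unop_injective (LinearMap.ext fun y => ?_))
      rw [Finset.unop_sum, LinearMap.sum_apply]
      exact LinearMap.sum_single_apply (fun v => Z (some v)) (x.1.unop y)
    · rw [Prod.snd_add, Prod.snd_sum]
      exact (congrArg _ (Finset.sum_eq_zero fun _ _ => rfl)).trans (add_zero _)
  · intro v φ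
    obtain ⟨f, rfl⟩ := full v v φ
    refine (ha v f).imp fun c hc => nil_post HM.lin (fun _ _ => HM.ext') rfl _ _ (fun w => ?_) hc
    refine LinearMap.ext fun y => ?_
    change f (w.lin y) - w.lin (c • y) = f (w.lin y) - algebraMap L R c • w.lin y
    rw [← map_smul, algebraMap_smul]
  · intro v w h φ ψ
    obtain ⟨f, rfl⟩ := full v w φ
    obtain ⟨g, rfl⟩ := full w v ψ
    exact nil_post HM.lin (fun _ _ => HM.ext') rfl _ _ (fun _ => rfl) (hb v w h f g)

open Vale.Agent.P195.H231 in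
theorem gamma_top {A M : Type u} [Ring A] [Algebra L A] [Module.Finite L A] [AddCommGroup M]
    [Module A M] [Module.Finite A M] [Module L M] [IsScalarTower L A M]
    (hM : ¬ Module.Projective A M) (h1 : Vale.Agent.P195.Van.OrthPos A M M)
    (h2 : Vale.Agent.P195.Van.OrthPos A M A) (hS : Spanned L (Module.End A (A × M))) :
    ∃ (B : Type u) (_ : Ring B) (_ : Algebra L B), Module.Finite L B ∧
      Spanned L B ∧ Vale.Agent.P176.findim B = ⊤ := by
  obtain ⟨T, _, _, hT, hk⟩ := exists_simple hM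
  have hE := ez_ring (OrthPos.prod_right
    (OrthPos.prod_left Vale.Agent.P195.Van.orthPos_of_projective h2)
    (OrthPos.prod_left Vale.Agent.P195.Van.orthPos_of_projective h1)) hk
  have hF : Module.Finite L (Vale.Agent.P195.Van.EndOp A (A × M)) :=
    Vale.Agent.P195.Van.finite_endOp
  have hN : IsNoetherianRing (Vale.Agent.P195.Van.EndOp A (A × M)) :=
    isNoetherian_of_tower L inferInstance
  have hn : Nontrivial T := IsSimpleModule.nontrivial (Vale.Agent.P195.Van.EndOp A (A × M)) T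
  exact ⟨(Vale.Agent.P195.Van.EndOp A (A × M))ᵐᵒᵖ, inferInstance, inferInstance,
    Module.Finite.equiv (MulOpposite.opLinearEquiv L), hS.op.op,
    Vale.Agent.P176.H231.findim_op_eq_top (T := T) hE⟩

end gamma

/-- the eleven vertices -/
abbrev vert (v : Option Ten) : Bool × Fin 6 :=
  match v with
  | none => (true, 5)
  | some v => v.1

theorem vert_inj {v w : Option Ten} (h : v ≠ w) : vert v ≠ vert w := by
  rcases v with _ | v <;> rcases w with _ | w
  · exact absurd rfl h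
  · exact fun e => w.2 (congrArg Prod.snd e).symm
  · exact fun e => v.2 (congrArg Prod.snd e)
  · exact fun e => h (congrArg some (Subtype.ext e))

variable (K) in
/-- The quantum counterexample is spanned by a finitely generated subring. -/
theorem exists_spanned : ∃ (B : Type u) (_ : Ring B) (_ : Algebra K B), Module.Finite K B ∧
    Spanned K B ∧ Vale.Agent.P176.findim B = ⊤ := by
  have h0 := finite_RR (K := K)
  have h1 := fun v => projective_PE (K := K) v
  have h2 := fun v => finite_PE (K := K) v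
  have h3 : Module.Finite (RR K) (P0 K) := inferInstance
  have h4 : Module.Projective (RR K) (P0 K) := Module.Projective.of_equiv
    (DirectSum.linearEquivFunOnFintype (RR K) Ten fun v => Md (PE K v.1))
  have h5 : ∀ f : P0 K →ₗ[RR K] Sm K, f = 0 := by
    intro f
    apply LinearMap.pi_ext'
    intro j
    rw [hom_PE_S j.1 (fun h => j.2 (by rw [h])) (f ∘ₗ _)]
    rfl
  have h6 : Orth (RR K) (Qm K) (P0 K) :=
    Orth.pi_right _ fun v => orth_Q_PE v.1 (fun h => v.2 (by rw [h]))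
  have h7 := hom_PE_S (K := K) (true, 5) (by decide)
  have h8 := stepEHyp' (orth_Q_PE (K := K) (true, 5) (by decide))
  obtain ⟨c1, c2, c3, c4, c5⟩ := stepE_conclusion (K := K) (R := RR K) (P0 := P0 K) (M := MK K)
    (S := Sm K) h5 h7 h8 (stepEHyp' h6) k0'
  have hN : IsNoetherianRing (RR K) := isNoetherian_of_tower K inferInstance
  have m1 : StepE (RR K) (Sm K) (MK K) (MK K) :=
    ⟨inferInstance, orth_of_projective h7, orthPos_of_projective⟩
  have m2 : StepE (RR K) (Sm K) (P0 K) (MK K) :=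
    ⟨inferInstance, orth_of_projective h7, orthPos_of_projective⟩
  have f1 := (coverClass_stepE (R := RR K) h5 h8).full m1
  have f2 := (coverClass_stepE (R := RR K) h5 (stepEHyp' h6)).full m2
  let _ : Module K (HM (RR K) (P0 K) (MK K)) :=
    Module.compHom _ (algebraMap K (EndOp (RR K) (P0 K)))
  have i1 : IsScalarTower K (EndOp (RR K) (P0 K)) (HM (RR K) (P0 K) (MK K)) := ⟨fun k a m => by
    change (k • a) • m = algebraMap K (EndOp (RR K) (P0 K)) k • (a • m)
    rw [Algebra.smul_def, mul_smul]⟩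
  have hF : Module.Finite K (Module.End (EndOp (RR K) (P0 K))
    (EndOp (RR K) (P0 K) × HM (RR K) (P0 K) (MK K))) := finite_end
  have hS := spanned_gamma (L := K) (R := RR K) (fun v => Md (PE K (vert v))) f1 f2
    (fun v => PE_end _) fun v w h => PE_ne (vert_inj h)
  exact gamma_top c5 c3 c4 hS

/-- Over every field there is a finite-dimensional algebra of infinite finitistic dimension. -/
theorem every_field (K : Type u) [Field K] : ∃ (B : Type u) (_ : Ring B) (_ : Algebra K B),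
    Module.Finite K B ∧ Vale.Agent.P176.findim B = ⊤ := by
  obtain ⟨hq⟩ := Vale.Agent.P195.H231.exists_qpar (K := RatFunc K) RatFunc.X_ne_zero (by
    intro n hn h1
    rw [← RatFunc.algebraMap_X, ← map_pow, ← map_one (algebraMap (Polynomial K) (RatFunc K))] at h1
    have h3 := congrArg Polynomial.natDegree (RatFunc.algebraMap_injective K h1)
    rw [Polynomial.natDegree_X_pow, Polynomial.natDegree_one] at h3
    omega)
  obtain ⟨A, _, _, h1, h2, h3⟩ := exists_spanned (RatFunc K)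
  exact descent K A h2 h3

end Vale.Agent.N176
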