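import Mathlib

/-!
# P176: split algebras have a finitely generated spanning subring
-/

namespace Vale.Agent.N176

universe u

/-- `A` is spanned over `L` by a subring that is finitely generated as an abelian group. -/
def Spanned (L A : Type*) [Field L] [Ring A] [Algebra L A] : Prop :=
  ∃ s : Submodule ℤ A, s.FG ∧ (1 : A) ∈ s ∧ (∀ a ∈ s, ∀ b ∈ s, a * b ∈ s) ∧
    Submodule.span L (s : Set A) = ⊤

section ring

variable {L A : Type*} [Field L] [Ring A] [Algebra L A]

theorem nil_swap {a b : A} (h : IsNilpotent (a * b)) : IsNilpotent (b * a) := by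
  obtain ⟨n, hn⟩ := h
  refine ⟨n + 1, ?_⟩
  rw [pow_succ', mul_assoc, ← mul_pow_mul, hn, zero_mul, mul_zero]

theorem mem_jac {x : A} (h : ∀ b, IsNilpotent (b * x)) : x ∈ Ideal.jacobson (⊥ : Ideal A) := by
  rw [Ideal.mem_jacobson_iff]
  intro y
  obtain ⟨u, hu⟩ := (h y).isUnit_add_one
  refine ⟨(u⁻¹ : Aˣ), ?_⟩
  rw [Ideal.mem_bot, sub_eq_zero]
  calc ((u⁻¹ : Aˣ) : A) * y * x + (u⁻¹ : Aˣ) = (u⁻¹ : Aˣ) * (y * x + 1) := by
        rw [mul_add, mul_one, mul_assoc]
    _ = 1 := by rw [← hu, Units.inv_mul]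

theorem spanned_of_nil [Module.Finite L A] (D : Submodule ℤ A) (hD : D.FG) (h1 : (1 : A) ∈ D)
    (hm : D * D ≤ D)
    (hs : ∀ a : A, ∃ d ∈ Submodule.span L (D : Set A), a - d ∈ Ideal.jacobson (⊥ : Ideal A)) :
    Spanned L A := by
  have hart : IsArtinianRing A := IsArtinianRing.of_finite L A
  obtain ⟨r, hr⟩ := IsArtinianRing.isNilpotent_jacobson_bot (R := A)
  set J : Ideal A := Ideal.jacobson (⊥ : Ideal A) with hJ
  have hJ2 : J.IsTwoSided := inferInstance
  have hfg : (J.restrictScalars L).FG := IsNoetherian.noetherian _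
  obtain ⟨t, ht⟩ := hfg
  let W0 : Submodule ℤ A := Submodule.span ℤ (t : Set A)
  let W : Submodule ℤ A := D * W0 * D
  have hW0 : W0.FG := ⟨t, rfl⟩
  have hW : W.FG := (hD.mul hW0).mul hD
  have hW0J : ∀ x ∈ W0, x ∈ J := by
    intro x hx
    have : W0 ≤ J.restrictScalars ℤ := by
      rw [Submodule.span_le]
      intro y hy
      have h2 : y ∈ Submodule.span L (t : Set A) := Submodule.subset_span hy
      rw [ht] at h2
      exact h2
    exact this hx
  have hWJ : ∀ x ∈ W, x ∈ J := by
    have : W ≤ J.restrictScalars ℤ := by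
      rw [Submodule.mul_le]
      intro m hm' n _
      refine Ideal.mul_mem_right n J ?_
      have h3 : D * W0 ≤ J.restrictScalars ℤ := by
        rw [Submodule.mul_le]
        intro a _ b hb
        exact J.mul_mem_left a (hW0J b hb)
      exact h3 hm'
    exact fun x hx => this hx
  have hpow : ∀ n : ℕ, W ^ n ≤ (J ^ n).restrictScalars ℤ := by
    intro n
    induction n with
    | zero =>
      intro x _
      change x ∈ J ^ 0
      rw [Submodule.pow_zero, Ideal.one_eq_top]
      trivial
    | succ n ih =>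
      rw [pow_succ, Submodule.mul_le]
      intro a ha b hb
      change a * b ∈ J ^ (n + 1)
      rw [Submodule.pow_succ]
      exact Ideal.mul_mem_mul (ih ha) (hWJ b hb)
  have hWr : W ^ r = ⊥ := by
    rw [eq_bot_iff]
    intro x hx
    have h2 : x ∈ J ^ r := hpow r hx
    rw [hr] at h2
    exact h2
  let T : Submodule ℤ A := ⨆ j : Fin r, D * W ^ (j : ℕ)
  have hT : ∀ j : ℕ, D * W ^ j ≤ T := by
    intro j
    by_cases hj : j < r
    · exact le_iSup (fun j : Fin r => D * W ^ (j : ℕ)) ⟨j, hj⟩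
    · obtain ⟨k, rfl⟩ : ∃ k, j = r + k := ⟨j - r, by omega⟩
      rw [pow_add, hWr, Submodule.bot_mul, Submodule.mul_bot]
      exact bot_le
  have hWD : W * D ≤ W := by
    change D * W0 * D * D ≤ D * W0 * D
    rw [mul_assoc (D * W0)]
    exact mul_le_mul_right hm _
  have hkey : ∀ i : ℕ, D * W ^ i * D ≤ D * W ^ i := by
    intro i
    cases i with
    | zero => rw [pow_zero, mul_one]; exact hm
    | succ i =>
      rw [pow_succ, mul_assoc, mul_assoc]
      exact mul_le_mul_right (mul_le_mul_right hWD _) _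
  have hDT : D ≤ T := by
    have := hT 0
    rwa [pow_zero, mul_one] at this
  refine ⟨T, Submodule.fg_iSup _ fun j => hD.mul (hW.pow _), hDT h1, ?_, ?_⟩
  · rw [← Submodule.mul_le, Submodule.iSup_mul, iSup_le_iff]
    intro i
    rw [Submodule.mul_iSup, iSup_le_iff]
    intro j
    refine le_trans ?_ (hT (i + j))
    rw [← mul_assoc, pow_add, ← mul_assoc D]
    exact mul_le_mul_left (hkey i) _
  · rw [eq_top_iff]
    intro a _
    obtain ⟨d, hd, had⟩ := hs a
    have h2 : a = d + (a - d) := by abel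
    rw [h2]
    refine Submodule.add_mem _ (Submodule.span_mono hDT hd) ?_
    have h3 : a - d ∈ Submodule.span L (t : Set A) := by rw [ht]; exact had
    refine Submodule.span_mono ?_ h3
    intro y hy
    have h4 : (1 : A) * ((1 * y) * 1) ∈ D * W ^ 1 := by
      rw [pow_one]
      exact Submodule.mul_mem_mul h1
        (Submodule.mul_mem_mul (Submodule.mul_mem_mul h1 (Submodule.subset_span hy)) h1)
    rw [one_mul, one_mul, mul_one] at h4
    exact hT 1 h4

/-- Local split corners and no isomorphisms between different vertices. -/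
theorem spanned_of_idem [Module.Finite L A] {ι : Type*} [Fintype ι] (e : ι → A)
    (he : CompleteOrthogonalIdempotents e)
    (ha : ∀ v x, ∃ c : L, IsNilpotent (e v * x * e v - c • e v))
    (hb : ∀ v w, v ≠ w → ∀ x y, IsNilpotent (e v * x * e w * y * e v)) : Spanned L A := by
  classical
  have hid : ∀ v, e v * e v = e v := fun v => (he.idem v).eq
  let D : Submodule ℤ A := Submodule.span ℤ (Set.range e)
  have heD : ∀ v, e v ∈ D := fun v => Submodule.subset_span ⟨v, rfl⟩
  refine spanned_of_nil D (Submodule.fg_span (Set.finite_range e)) ?_ ?_ ?_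
  · rw [← he.complete]
    exact Submodule.sum_mem _ fun v _ => heD v
  · rw [Submodule.span_mul_span, Submodule.span_le]
    rintro _ ⟨_, ⟨v, rfl⟩, _, ⟨w, rfl⟩, rfl⟩
    by_cases h : v = w
    · subst h
      change e v * e v ∈ D
      rw [hid]
      exact heD v
    · change e v * e w ∈ D
      rw [he.ortho h]
      exact D.zero_mem
  · have off : ∀ v w, v ≠ w → ∀ x, e v * x * e w ∈ Ideal.jacobson (⊥ : Ideal A) := by
      intro v w h x
      refine mem_jac fun b => ?_
      have h2 : b * (e v * x * e w) = (b * e v) * (e v * x * e w) := by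
        rw [mul_assoc b, ← mul_assoc (e v), ← mul_assoc (e v), hid]
      rw [h2]
      refine nil_swap ?_
      rw [← mul_assoc]
      exact hb v w h x b
    have diag : ∀ v (n : A), e v * n = n → n * e v = n → IsNilpotent n →
        n ∈ Ideal.jacobson (⊥ : Ideal A) := by
      intro v n hl hr hn
      refine mem_jac fun b => ?_
      obtain ⟨c, hc⟩ := ha v (b * n)
      by_cases h0 : c = 0
      · rw [h0, zero_smul, sub_zero, mul_assoc] at hc
        have h3 := nil_swap hc
        rwa [mul_assoc, hid, mul_assoc, hr] at h3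
      · set m := e v * (b * n) * e v - c • e v with hm
        have hu : IsUnit (algebraMap L A c + m) :=
          hc.isUnit_add_left_of_commute ((IsUnit.mk0 c h0).map (algebraMap L A))
            (Algebra.commutes c m).symm
        obtain ⟨u, hu⟩ := hu
        have h3 : (u : A) * e v = e v * b * n := by
          rw [hu, add_mul, hm, sub_mul, smul_mul_assoc, hid, ← Algebra.smul_def, mul_assoc _ (e v),
            hid, mul_assoc (e v) (b * n), mul_assoc b, hr, mul_assoc]
          abel
        have h4 : e v = ((u⁻¹ : Aˣ) * e v * b) * n := by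
          rw [mul_assoc, mul_assoc, ← mul_assoc (e v), ← h3, ← mul_assoc, Units.inv_mul, one_mul]
        generalize ((u⁻¹ : Aˣ) : A) * e v * b = z at h4
        have h5 : ∀ k : ℕ, e v = z ^ k * n ^ k * e v := by
          intro k
          induction k with
          | zero => simp
          | succ k ih =>
            calc e v = z * n := h4
              _ = z * (e v * n) := by rw [hl]
              _ = z * (z ^ k * n ^ k * e v * n) := by rw [← ih]
              _ = z ^ (k + 1) * n ^ (k + 1) * e v := by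
                rw [mul_assoc _ (e v), hl, pow_succ' z, pow_succ n, mul_assoc _ _ (e v),
                  mul_assoc _ n, hr, mul_assoc, mul_assoc]
        obtain ⟨k, hk⟩ := hn
        have h6 : e v = 0 := by rw [h5 k, hk, mul_zero, zero_mul]
        rw [← hl, h6, zero_mul, mul_zero]
        exact IsNilpotent.zero
    intro a
    choose c hc using fun v => ha v a
    refine ⟨∑ v, c v • e v, Submodule.sum_mem _ fun v _ =>
      Submodule.smul_mem _ _ (Submodule.subset_span (heD v)), ?_⟩
    have h2 : a = ∑ v, ∑ w, e v * a * e w := by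
      calc a = (∑ v, e v) * a * ∑ w, e w := by rw [he.complete, one_mul, mul_one]
        _ = ∑ v, ∑ w, e v * a * e w := by
          rw [Finset.sum_mul, Finset.sum_mul]
          exact Finset.sum_congr rfl fun v _ => Finset.mul_sum _ _ _
    have h3 : a - ∑ v, c v • e v = ∑ v, (∑ w, e v * a * e w - c v • e v) := by
      rw [Finset.sum_sub_distrib, ← h2]
    rw [h3]
    refine Ideal.sum_mem _ fun v _ => ?_
    rw [← Finset.add_sum_erase _ _ (Finset.mem_univ v), add_sub_right_comm]
    refine Ideal.add_mem _ (diag v _ ?_ ?_ (hc v))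
      (Ideal.sum_mem _ fun w hw => off v w (Finset.ne_of_mem_erase hw).symm a)
    · rw [mul_sub, mul_smul_comm, hid, ← mul_assoc, ← mul_assoc, hid]
    · rw [sub_mul, smul_mul_assoc, hid, mul_assoc _ (e v), hid]

theorem Spanned.op (h : Spanned L A) : Spanned L Aᵐᵒᵖ := by
  obtain ⟨s, h1, h2, h3, h4⟩ := h
  refine ⟨s.map (MulOpposite.opLinearEquiv ℤ : A ≃ₗ[ℤ] Aᵐᵒᵖ).toLinearMap, h1.map _,
    ⟨1, h2, rfl⟩, ?_, ?_⟩
  · rintro _ ⟨a, ha, rfl⟩ _ ⟨b, hb, rfl⟩
    exact ⟨b * a, h3 b hb a ha, rfl⟩
  · have h5 := congrArg (Submodule.map (MulOpposite.opLinearEquiv L : A ≃ₗ[L] Aᵐᵒᵖ).toLinearMap) h4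
    rw [Submodule.map_span, Submodule.map_top, LinearEquiv.range] at h5
    exact h5

end ring

section modules

variable {L A : Type*} [Field L] [Ring A] [Algebra L A]

/-- multiplication by a central scalar -/
def sm {S A : Type*} [CommRing S] [Ring A] [Algebra S A] (c : S) (Y : Type*) [AddCommGroup Y]
    [Module A Y] : Y →ₗ[A] Y where
  toFun y := algebraMap S A c • y
  map_add' := smul_add _
  map_smul' a y := by
    rw [RingHom.id_apply, ← mul_smul, ← mul_smul, Algebra.commutes]

theorem sm_apply {S A : Type*} [CommRing S] [Ring A] [Algebra S A] (c : S) {Y : Type*}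
    [AddCommGroup Y] [Module A Y] (y : Y) : sm (A := A) c Y y = algebraMap S A c • y := rfl

theorem nil_conj {X Y : Type*} [AddCommGroup X] [Module A X] [AddCommGroup Y] [Module A Y]
    (i : Y →ₗ[A] X) (p : X →ₗ[A] Y) (h : p ∘ₗ i = LinearMap.id) {φ : Module.End A Y}
    (hφ : IsNilpotent φ) : IsNilpotent (i ∘ₗ φ ∘ₗ p : Module.End A X) := by
  obtain ⟨n, hn⟩ := hφ
  have key : ∀ k : ℕ, (i ∘ₗ φ ∘ₗ p : Module.End A X) ^ (k + 1) = i ∘ₗ (φ ^ (k + 1)) ∘ₗ p := by
    intro k
    induction k with
    | zero => simp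
    | succ k ih =>
      rw [pow_succ, ih, pow_succ φ (k + 1)]
      ext x
      have h2 : ∀ y, p (i y) = y := fun y => LinearMap.congr_fun h y
      simp [h2]
  refine ⟨n + 1, ?_⟩
  rw [key, pow_succ, hn, zero_mul]
  ext x
  simp

/-- The endomorphism ring of a sum of modules with local split endomorphism rings. -/
theorem spanned_end {X : Type*} [AddCommGroup X] [Module A X] [Module L X] [IsScalarTower L A X]
    [Module.Finite L (Module.End A X)] {ι : Type*} [Fintype ι] (Y : ι → Type*)
    [∀ v, AddCommGroup (Y v)] [∀ v, Module A (Y v)] (i : ∀ v, Y v →ₗ[A] X)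
    (p : ∀ v, X →ₗ[A] Y v) (h1 : ∀ v, p v ∘ₗ i v = LinearMap.id)
    (h2 : ∀ v w, v ≠ w → p v ∘ₗ i w = 0) (h3 : ∀ x, ∑ v, i v (p v x) = x)
    (ha : ∀ v (φ : Module.End A (Y v)), ∃ c : L, IsNilpotent (φ - sm (A := A) c (Y v)))
    (hb : ∀ v w, v ≠ w → ∀ (φ : Y v →ₗ[A] Y w) (ψ : Y w →ₗ[A] Y v),
      IsNilpotent (ψ ∘ₗ φ : Module.End A (Y v))) : Spanned L (Module.End A X) := by
  have h1' : ∀ v y, p v (i v y) = y := fun v y => LinearMap.congr_fun (h1 v) y
  refine spanned_of_idem (fun v => (i v ∘ₗ p v : Module.End A X)) ⟨⟨fun v => ?_, ?_⟩, ?_⟩ ?_ ?_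
  · ext x
    simp [h1']
  · intro v w h
    ext x
    have := LinearMap.congr_fun (h2 v w h) (p w x)
    simp only [LinearMap.comp_apply, LinearMap.zero_apply] at this
    simp [this]
  · ext x
    rw [LinearMap.sum_apply]
    exact h3 x
  · intro v x
    obtain ⟨c, hc⟩ := ha v (p v ∘ₗ x ∘ₗ i v)
    refine ⟨c, ?_⟩
    have h4 : (i v ∘ₗ p v : Module.End A X) * x * (i v ∘ₗ p v) - c • (i v ∘ₗ p v) =
        i v ∘ₗ ((p v ∘ₗ x ∘ₗ i v : Module.End A (Y v)) - sm (A := A) c (Y v)) ∘ₗ p v := by
      ext y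
      simp [sm_apply]
    rw [h4]
    exact nil_conj (i v) (p v) (h1 v) hc
  · intro v w h x y
    exact nil_conj (i v) (p v) (h1 v) (hb v w h (p w ∘ₗ y ∘ₗ i v) (p v ∘ₗ x ∘ₗ i w))

end modules

end Vale.Agent.N176
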