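import Vale.Agent.N176.Lat
import Vale.Agent.P195.H231.Gnc

/-!
# P176: windows

A subalgebra `B` of `C` such that `C` has a two-term projective resolution over `B` built from a
central element: projective dimensions over `B` and `C` differ by at most one.
-/

namespace Vale.Agent.N176

open Vale.Agent.P176.HMod Vale.Agent.P176.H807 CategoryTheory Function
open Vale.Agent.P195.Van (EZ OrthPos orthPos_of_projective orth_of_subsingleton)

universe u

section dl

variable {B M N : Type u} [Ring B] [AddCommGroup M] [Module B M] [AddCommGroup N] [Module B N]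

/-- `a - shift ∘ b` -/
noncomputable def dl (a b : M →ₗ[B] N) : (ℕ →₀ M) →ₗ[B] (ℕ →₀ N) :=
  Finsupp.mapRange.linearMap a - Finsupp.lmapDomain N B Nat.succ ∘ₗ Finsupp.mapRange.linearMap b

theorem dl_zero (a b : M →ₗ[B] N) (q : ℕ →₀ M) : dl a b q 0 = a (q 0) := by
  simp [dl, Finsupp.mapDomain_of_notMem_range]

theorem dl_succ (a b : M →ₗ[B] N) (q : ℕ →₀ M) (j : ℕ) :
    dl a b q (j + 1) = a (q (j + 1)) - b (q j) := by
  have h := Finsupp.mapDomain_apply Nat.succ_injective (Finsupp.mapRange.linearMap b q) j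
  simp only [dl, LinearMap.sub_apply, Finsupp.sub_apply, LinearMap.comp_apply,
    Finsupp.lmapDomain_apply]
  rw [h]
  simp

theorem dl_single (a b : M →ₗ[B] N) (j : ℕ) (x : M) :
    dl a b (Finsupp.single j x) = Finsupp.single j (a x) - Finsupp.single (j + 1) (b x) := by
  simp [dl]

theorem ses_van {X Y Z : Type u} [AddCommGroup X] [Module B X] [AddCommGroup Y] [Module B Y]
    [AddCommGroup Z] [Module B Z] {f : X →ₗ[B] Y} {g : Y →ₗ[B] Z} (s : SES f g) :
    Vale.Agent.P195.Van.SES f g := ⟨s.inj, s.exact, s.surj⟩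

theorem ez_of_pdLT {n i : ℕ} (h : PdLT B M n) (hi : n ≤ i) : EZ B i M N := by
  have : HasProjectiveDimensionLT (ModuleCat.of B M) n := h
  exact subsingleton_of_forall_eq 0 fun x => x.eq_zero_of_hasProjectiveDimensionLT n hi

theorem pi_both (k : ℕ) (h1 : PdLT B M 2) (h2 : OrthPos B M N) :
    PdLT B (Fin k → M) 2 ∧ OrthPos B (Fin k → M) N := by
  induction k with
  | zero => exact ⟨PdLT.of_subsingleton.mono (by omega), orth_of_subsingleton.pos⟩
  | succ k ih =>
    let e := Fin.consLinearEquiv B fun _ : Fin (k + 1) => M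
    have s : SES (LinearMap.inl B M (Fin k → M)) (LinearMap.snd B M (Fin k → M)) :=
      ⟨LinearMap.inl_injective, Function.Exact.inl_snd, LinearMap.snd_surjective⟩
    exact ⟨PdLT.of_equiv e (s.pdLT₂ h1 ih.1), fun i =>
      EZ.of_retract e.symm.toLinearMap e.toLinearMap (by ext; simp)
        (Vale.Agent.P195.H231.OrthPos.prod_left h2 ih.2 i)⟩

end dl

section win

variable {B C : Type u} [Ring B] [Ring C] [Module B C] [IsScalarTower B C C]

/-- a submodule with a dual basis inside `C` -/
def Framed (U : Submodule B C) : Prop :=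
  ∃ (g h : Fin 2 → C) (i : U →ₗ[B] (Fin 2 → B)), ∑ a, h a * g a = 1 ∧ (∀ a, g a ∈ U) ∧
    ∀ u a, i u a • (1 : C) = u * h a

variable {N : Type u} [AddCommGroup N] [Module C N] [Module B N] [IsScalarTower B C N]

theorem Framed.decomp {U : Submodule B C} {g h : Fin 2 → C} {i : U →ₗ[B] (Fin 2 → B)}
    (h1 : ∑ a, h a * g a = 1) (h2 : ∀ a, g a ∈ U) (h3 : ∀ u a, i u a • (1 : C) = u * h a) (u : U) :
    u = ∑ a, i u a • (⟨g a, h2 a⟩ : U) := by
  apply Subtype.ext
  rw [Submodule.coe_sum]
  change (u : C) = ∑ a, i u a • g a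
  simp_rw [← smul_one_mul (i u _) (g _), h3, mul_assoc]
  rw [← Finset.mul_sum, h1, mul_one]

theorem Framed.proj {U : Submodule B C} (f : Framed U) : Module.Projective B U := by
  obtain ⟨g, h, i, h1, h2, h3⟩ := f
  refine Module.Projective.of_split i (Fintype.linearCombination B fun a => ⟨g a, h2 a⟩) ?_
  ext1 u
  exact (Framed.decomp h1 h2 h3 u).symm

theorem Framed.rep {U : Submodule B C} (f : Framed U) (φ : U →ₗ[B] N) :
    ∃ n : N, ∀ u : U, φ u = (u : C) • n := by
  obtain ⟨g, h, i, h1, h2, h3⟩ := f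
  refine ⟨∑ a, h a • φ ⟨g a, h2 a⟩, fun u => ?_⟩
  conv_lhs => rw [Framed.decomp h1 h2 h3 u, map_sum]
  rw [Finset.smul_sum]
  refine Finset.sum_congr rfl fun a _ => ?_
  rw [map_smul, ← mul_smul, ← h3, smul_one_smul]

omit [IsScalarTower B C C] [Module B N] [IsScalarTower B C N] in
theorem Framed.faith {U : Submodule B C} (f : Framed U) {n m : N}
    (hn : ∀ u ∈ U, u • n = u • m) : n = m := by
  obtain ⟨g, h, -, h1, h2, -⟩ := f
  rw [← one_smul C n, ← one_smul C m, ← h1, Finset.sum_smul, Finset.sum_smul]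
  exact Finset.sum_congr rfl fun a _ => by rw [mul_smul, mul_smul, hn _ (h2 a)]

/-- the data of a window -/
structure Window (t : C) (U0 U1 : Submodule B C) : Prop where
  cen : ∀ x, t * x = x * t
  reg : ∀ x, t * x = 0 → x = 0
  f0 : Framed U0
  f1 : Framed U1
  le : U0 ≤ U1
  mul : ∀ x ∈ U0, t * x ∈ U1
  sat : ∀ x, t * x ∈ U1 → x ∈ U0
  gen : ∀ S : AddSubgroup C, (∀ j : ℕ, ∀ u ∈ U1, u * t ^ j ∈ S) → ∀ x, x ∈ S

/-- right multiplication -/
def rm (B : Type u) [Ring B] [Module B C] [Module B N] [IsScalarTower B C N] (n : N) :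
    C →ₗ[B] N :=
  { toFun := fun c => c • n
    map_add' := fun _ _ => add_smul _ _ _
    map_smul' := fun _ _ => smul_assoc _ _ _ }

omit [IsScalarTower B C C] in
theorem rm_apply (n : N) (x : C) : rm B n x = x • n := rfl

/-- evaluation -/
noncomputable def ev (U : Submodule B C) (m : ℕ → N) : (ℕ →₀ U) →ₗ[B] N :=
  Finsupp.lsum ℕ fun j => rm B (m j) ∘ₗ U.subtype

omit [IsScalarTower B C C] in
theorem ev_single (U : Submodule B C) (m : ℕ → N) (j : ℕ) (u : U) :
    ev U m (Finsupp.single j u) = (u : C) • m j := by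
  simp [ev, rm_apply]

variable {t : C} {U0 U1 : Submodule B C}

/-- multiplication by `t` -/
def Window.T (w : Window t U0 U1) : U0 →ₗ[B] U1 :=
  (rm B t ∘ₗ U0.subtype).codRestrict U1 fun x => by
    change (x : C) * t ∈ U1
    rw [← w.cen]
    exact w.mul _ x.2

/-- the differential -/
noncomputable def Window.d (w : Window t U0 U1) : (ℕ →₀ U0) →ₗ[B] (ℕ →₀ U1) :=
  dl w.T (Submodule.inclusion w.le)

theorem Window.ev_d (w : Window t U0 U1) (m : ℕ → N) (j : ℕ) (u : U0) :
    ev U1 m (w.d (Finsupp.single j u)) = ((u : C) * t) • m j - (u : C) • m (j + 1) := by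
  refine (congrArg (ev U1 m) (dl_single _ _ j u)).trans ((map_sub (ev U1 m) _ _).trans ?_)
  rw [ev_single, ev_single]
  rfl

theorem divide (t : C) (p : ℕ →₀ C) : ∃ q : ℕ →₀ C, p = dl (rm B t) LinearMap.id q +
    Finsupp.single 0 (Finsupp.lsum ℕ (fun j => (rm B (t ^ j) : C →ₗ[B] C)) p) := by
  induction p using Finsupp.induction_linear with
  | zero => exact ⟨0, by simp⟩
  | add p p' h h' =>
    obtain ⟨q, hq⟩ := h
    obtain ⟨q', hq'⟩ := h'
    refine ⟨q + q', ?_⟩
    rw [map_add, map_add, Finsupp.single_add, add_add_add_comm, ← hq, ← hq']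
  | single j x =>
    rw [Finsupp.lsum_single, rm_apply, smul_eq_mul]
    induction j generalizing x with
    | zero => exact ⟨0, by simp⟩
    | succ j ih =>
      obtain ⟨q, hq⟩ := ih (x * t)
      refine ⟨q - Finsupp.single j x, ?_⟩
      rw [map_sub, dl_single, rm_apply, smul_eq_mul, hq, pow_succ', mul_assoc, LinearMap.id_apply]
      abel

theorem Window.ses (w : Window t U0 U1) :
    SES (A := B) (M₁ := ℕ →₀ U0) (M₂ := ℕ →₀ U1) (M₃ := C) w.d (ev U1 fun j => t ^ j) := by
  refine ⟨?_, fun p => ⟨fun hp => ?_, ?_⟩, fun x => ?_⟩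
  · rw [injective_iff_map_eq_zero]
    intro q hq
    have h0 : ∀ x : U0, w.T x = 0 → x = 0 := fun x hx =>
      Subtype.ext (w.reg _ ((w.cen _).trans (congrArg Subtype.val hx)))
    ext1 j
    induction j with
    | zero => exact h0 _ ((dl_zero _ _ q).symm.trans (DFunLike.congr_fun hq 0))
    | succ j ih =>
      have h1 := (dl_succ _ _ q j).symm.trans (DFunLike.congr_fun hq (j + 1))
      rw [ih, Finsupp.zero_apply, map_zero, sub_zero] at h1
      exact h0 _ h1
  · obtain ⟨q, hq⟩ := divide (B := B) t (Finsupp.mapRange.linearMap U1.subtype p)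
    have h1 : Finsupp.lsum ℕ (fun j => rm B (t ^ j)) ∘ₗ Finsupp.mapRange.linearMap U1.subtype =
        ev U1 fun j => t ^ j := by
      ext j u
      simp [ev]
    rw [← LinearMap.comp_apply, h1, hp, Finsupp.single_zero, add_zero] at hq
    have h2 : (p 0 : C) = q 0 * t := (DFunLike.congr_fun hq 0).trans (dl_zero _ _ q)
    have h3 : ∀ j, (p (j + 1) : C) = q (j + 1) * t - q j := fun j =>
      (DFunLike.congr_fun hq (j + 1)).trans (dl_succ _ _ q j)
    have h4 : ∀ j, q j ∈ U0 := by
      intro j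
      induction j with
      | zero => exact w.sat _ (by rw [w.cen, ← h2]; exact (p 0).2)
      | succ j ih =>
        refine w.sat _ ?_
        rw [w.cen, ← sub_add_cancel (q (j + 1) * t) (q j), ← h3]
        exact U1.add_mem (p _).2 (w.le ih)
    refine ⟨Finsupp.onFinset q.support (fun j => ⟨q j, h4 j⟩) fun j hj =>
      Finsupp.mem_support_iff.2 fun h => hj (Subtype.ext h), ?_⟩
    ext j
    cases j with
    | zero => exact (congrArg Subtype.val (dl_zero _ _ _)).trans h2.symm
    | succ j => exact (congrArg Subtype.val (dl_succ _ _ _ j)).trans (h3 j).symm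
  · rintro ⟨q, rfl⟩
    have h1 : (ev U1 fun j => t ^ j) ∘ₗ w.d = 0 := by
      ext j u
      refine (w.ev_d _ j u).trans ?_
      change (u : C) * t * t ^ j - (u : C) * t ^ (j + 1) = 0
      rw [pow_succ', mul_assoc, sub_self]
    exact LinearMap.congr_fun h1 q
  · exact w.gen (LinearMap.range (ev U1 fun j => t ^ j)).toAddSubgroup
      (fun j u hu => ⟨Finsupp.single j ⟨u, hu⟩, ev_single _ _ _ _⟩) x

theorem Window.ext (w : Window t U0 U1) (φ : (ℕ →₀ U0) →ₗ[B] N) :
    ∃ ψ : (ℕ →₀ U1) →ₗ[B] N, ψ ∘ₗ w.d = φ := by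
  choose n hn using fun j => w.f0.rep (φ ∘ₗ Finsupp.lsingle j)
  let m : ℕ → N := fun j => Nat.rec 0 (fun j x => t • x - n j) j
  refine ⟨ev U1 m, ?_⟩
  ext j u
  refine (w.ev_d m j u).trans (Eq.trans ?_ (hn j u).symm)
  change ((u : C) * t) • m j - (u : C) • (t • m j - n j) = _
  rw [smul_sub, mul_smul, sub_sub_cancel]

theorem Window.full (w : Window t U0 U1) (χ : C →ₗ[B] N) (c : C) : χ c = c • χ 1 := by
  choose n hn using fun j => w.f1.rep (χ ∘ₗ rm B (t ^ j) ∘ₗ U1.subtype)
  have hn' : ∀ j, ∀ u ∈ U1, χ (u * t ^ j) = u • n j := fun j u hu => hn j ⟨u, hu⟩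
  have h1 : ∀ j, n j = t ^ j • n 0 := by
    intro j
    induction j with
    | zero => rw [pow_zero, one_smul]
    | succ j ih =>
      refine w.f0.faith fun u hu => ?_
      rw [← hn' _ u (w.le hu), pow_succ', ← mul_assoc, hn' _ _ (w.cen u ▸ w.mul u hu), ih,
        mul_smul, mul_smul]
  have h2 : ∀ c, χ c = c • n 0 := fun c =>
    w.gen (LinearMap.eqLocus χ (rm B (n 0))).toAddSubgroup (fun j u hu => by
      change χ _ = (u * t ^ j) • n 0
      rw [hn' j u hu, h1 j, mul_smul]) c
  rw [h2 c, h2 1, one_smul]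

theorem Window.both (w : Window t U0 U1) (k : ℕ) :
    PdLT B (Fin k → C) 2 ∧ OrthPos B (Fin k → C) N := by
  classical
  have p0 := w.f0.proj
  have p1 := w.f1.proj
  have q0 : Module.Projective B (ℕ →₀ U0) :=
    Module.Projective.of_equiv' (finsuppLequivDFinsupp (ι := ℕ) (M := U0) B).symm
  have q1 : Module.Projective B (ℕ →₀ U1) :=
    Module.Projective.of_equiv' (finsuppLequivDFinsupp (ι := ℕ) (M := U1) B).symm
  have h : PdLT B C 2 := w.ses.pdLT₃ PdLT.of_projective (PdLT.of_projective.mono (by omega))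
  refine pi_both k h fun i => ?_
  cases i with
  | zero => exact (ses_van w.ses).ez_one (orthPos_of_projective 0) w.ext
  | succ i => exact ez_of_pdLT h (by omega)

omit [IsScalarTower B C C] in
theorem ses_res {X Y Z : Type u} [AddCommGroup X] [Module C X] [AddCommGroup Y] [Module C Y]
    [AddCommGroup Z] [Module C Z] [Module B X] [Module B Y] [Module B Z] [IsScalarTower B C X]
    [IsScalarTower B C Y] [IsScalarTower B C Z] {f : X →ₗ[C] Y} {g : Y →ₗ[C] Z} (s : SES f g) :
    SES (f.restrictScalars B) (g.restrictScalars B) := ⟨s.inj, s.exact, s.surj⟩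

theorem Window.up (w : Window t U0 U1) [IsNoetherianRing C] (n : ℕ) :
    ∀ (Y : Type u) [AddCommGroup Y] [Module C Y] [Module B Y] [IsScalarTower B C Y]
      [Module.Finite C Y],
      PdLT C Y (n + 1) → PdLT B Y (n + 2) := by
  induction n with
  | zero =>
    intro Y _ _ _ _ _ h
    obtain ⟨k, g, hg⟩ := Module.Finite.exists_fin' C Y
    have hP : Module.Projective C Y := pdLT_one_iff.1 h
    obtain ⟨s, hs⟩ := Module.projective_lifting_property g LinearMap.id hg
    exact pdLT_retract (s.restrictScalars B) (g.restrictScalars B)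
      (LinearMap.ext fun x => LinearMap.congr_fun hs x) (w.both (N := C) k).1
  | succ n ih =>
    intro Y _ _ _ _ _ h
    obtain ⟨k, g, hg⟩ := Module.Finite.exists_fin' C Y
    have s := ses_ker g hg
    exact (ses_res s).pdLT₃ (ih _ (s.pdLT₁ (PdLT.of_projective.mono (by omega)) h))
      ((w.both (N := C) k).1.mono (by omega))

theorem Window.down (w : Window t U0 U1) [IsNoetherianRing C] (n : ℕ) :
    ∀ (Y : Type u) [AddCommGroup Y] [Module C Y] [Module B Y] [IsScalarTower B C Y]
      [Module.Finite C Y],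
      PdLT B Y (n + 2) → PdLT C Y (n + 2) := by
  induction n with
  | zero =>
    intro Y _ _ _ _ _ h
    obtain ⟨k, g, hg⟩ := Module.Finite.exists_fin' C Y
    have s := ses_ker g hg
    obtain ⟨l, g', hg'⟩ := Module.Finite.exists_fin' C (LinearMap.ker g)
    have s' := ses_ker g' hg'
    have h1 : EZ B 1 (LinearMap.ker g) (LinearMap.ker g') :=
      (ses_van (ses_res s)).ez_left ((w.both k).2 0) (ez_of_pdLT h le_rfl)
    obtain ⟨r, hr⟩ := (ses_van (ses_res (B := B) s')).extend h1 LinearMap.id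
    let r' : (Fin l → C) →ₗ[C] LinearMap.ker g' :=
      { toFun := r
        map_add' := map_add r
        map_smul' := fun c v => by
          have h2 := w.full (r ∘ₗ rm B v) c
          rw [LinearMap.comp_apply, LinearMap.comp_apply, rm_apply, rm_apply, one_smul] at h2
          exact h2 }
    have hP : Module.Projective C (LinearMap.ker g) :=
      projective_of_retraction s' r' (LinearMap.ext fun x => LinearMap.congr_fun hr x)
    exact s.pdLT₃ PdLT.of_projective (PdLT.of_projective.mono (by omega))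
  | succ n ih =>
    intro Y _ _ _ _ _ h
    obtain ⟨k, g, hg⟩ := Module.Finite.exists_fin' C Y
    have s := ses_ker g hg
    exact s.pdLT₃ (ih _ ((ses_res s).pdLT₁ ((w.both (N := C) k).1.mono (by omega)) h))
      (PdLT.of_projective.mono (by omega))

end win

end Vale.Agent.N176
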